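import Vale.Agent.P004N.H65.Fin
import Vale.Agent.P004N.H880.FE2

/-!
# Composition and division of Atkin-Lehner involutions, pure functional equations
-/

open UpperHalfPlane CongruenceSubgroup
open scoped MatrixGroups ModularForm Manifold Real

namespace P004N.H461

open Vale.Agent.P004H.H871 (kr Fd)

lemma alw_iff {N Q R : ℕ} (hN : Q * R = N) (hQ : 0 < Q) (f : ℍ → ℂ) (ε : ℝ) :
    ALw N Q f ε ↔ ∀ x y z w : ℤ, Q * x * w - y * R * z = 1 →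
      sl f (WW Q R x y z w) = (ε : ℂ) • f := by
  rw [← als_iff hN hQ]
  constructor
  · intro h x y z w e τ τ' hτ
    rw [h x y z w e τ τ' hτ, Pi.smul_apply, smul_eq_mul]
    ring
  · intro h x y z w e τ τ' hτ
    rw [h x y z w e τ τ' hτ, Pi.smul_apply, smul_eq_mul]
    ring

/-- it suffices to check one matrix -/
lemma alw_of_one {N Q R : ℕ} (hN : Q * R = N) (hQ : 0 < Q) {f : ℍ → ℂ} (hf : S2 N f) {ε : ℝ}
    {x y z w : ℤ} (h : Q * x * w - y * R * z = 1) (hs : sl f (WW Q R x y z w) = (ε : ℂ) • f) :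
    ALw N Q f ε := by
  subst hN
  exact (alw_iff rfl hQ f ε).2 fun x' y' z' w' h' => by rw [ww_indep hQ h h' hf, hs]

lemma alw_one {N : ℕ} {f : ℍ → ℂ} (hf : S2 N f) : ALw N 1 f 1 := by
  refine (alw_iff (one_mul N) one_pos f 1).2 fun x y z w h => ?_
  have hg : G0 N (WW 1 N x y z w) := by
    refine ⟨?_, ?_⟩
    · rw [WW_det h]; rfl
    · simp [WW]
  rw [hf.inv hg]
  simp

/-- product of two operators -/
lemma ww_mul {Q1 Q2 R : ℕ} (x1 y1 z1 w1 x2 y2 z2 w2 : ℤ) :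
    WW Q1 (Q2 * R) x1 y1 z1 w1 * WW Q2 (Q1 * R) x2 y2 z2 w2 =
      WW (Q1 * Q2) R (x1 * x2 + y1 * R * z2) (Q1 * x1 * y2 + Q2 * y1 * w2)
        (z1 * Q2 * x2 + Q1 * w1 * z2) (R * z1 * y2 + w1 * w2) := by
  rw [WW, WW, WW]
  ext i j
  fin_cases i <;> fin_cases j
  · simp [Matrix.mul_apply]; ring
  · simp [Matrix.mul_apply]; ring
  · simp [Matrix.mul_apply]; ring
  · simp [Matrix.mul_apply]; ring

lemma ww_mul_rel {Q1 Q2 R : ℕ} (h1 : 0 < Q1) (h2 : 0 < Q2) {x1 y1 z1 w1 x2 y2 z2 w2 : ℤ}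
    (e1 : Q1 * x1 * w1 - y1 * ((Q2 * R : ℕ) : ℤ) * z1 = 1)
    (e2 : Q2 * x2 * w2 - y2 * ((Q1 * R : ℕ) : ℤ) * z2 = 1) :
    ((Q1 * Q2 : ℕ) : ℤ) * (x1 * x2 + y1 * R * z2) * (R * z1 * y2 + w1 * w2) -
      (Q1 * x1 * y2 + Q2 * y1 * w2) * R * (z1 * Q2 * x2 + Q1 * w1 * z2) = 1 := by
  push_cast at e1 e2 ⊢
  linear_combination (Q2 * x2 * w2 - y2 * (Q1 * R) * z2) * e1 + e2

lemma comp {Q1 Q2 R : ℕ} (h1 : 0 < Q1) (h2 : 0 < Q2) (c1 : Q1.Coprime (Q2 * R))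
    (c2 : Q2.Coprime (Q1 * R)) {f : ℍ → ℂ} (hf : S2 (Q1 * Q2 * R) f) {ε1 ε2 : ℝ}
    (a1 : ALw (Q1 * Q2 * R) Q1 f ε1) (a2 : ALw (Q1 * Q2 * R) Q2 f ε2) :
    ALw (Q1 * Q2 * R) (Q1 * Q2) f (ε1 * ε2) := by
  obtain ⟨x1, y1, z1, w1, e1⟩ := bez c1
  obtain ⟨x2, y2, z2, w2, e2⟩ := bez c2
  have s1 := (alw_iff (show Q1 * (Q2 * R) = Q1 * Q2 * R by ring) h1 f ε1).1 a1 _ _ _ _ e1
  have s2 := (alw_iff (show Q2 * (Q1 * R) = Q1 * Q2 * R by ring) h2 f ε2).1 a2 _ _ _ _ e2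
  refine alw_of_one rfl (Nat.mul_pos h1 h2) hf (ww_mul_rel h1 h2 e1 e2) ?_
  have d1 : 0 < (WW Q1 (Q2 * R) x1 y1 z1 w1).det := by rw [WW_det e1]; exact_mod_cast h1
  have d2 : 0 < (WW Q2 (Q1 * R) x2 y2 z2 w2).det := by rw [WW_det e2]; exact_mod_cast h2
  rw [← ww_mul, sl_mul _ _ _ d1 d2, s1, sl_smul, s2, smul_smul]
  push_cast
  rfl

lemma divi {Q R : ℕ} (hQ : 0 < Q) (hR : 0 < R) (c : Q.Coprime R) {f : ℍ → ℂ}
    (hf : S2 (Q * R) f) {ε εR : ℝ} (hεR : εR = 1 ∨ εR = -1) (aM : ALw (Q * R) (Q * R) f ε)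
    (aR : ALw (Q * R) R f εR) : ALw (Q * R) Q f (ε * εR) := by
  have hM : 0 < Q * R := Nat.mul_pos hQ hR
  obtain ⟨x1, y1, z1, w1, e1⟩ := bez c
  obtain ⟨x2, y2, z2, w2, e2⟩ := bez c.symm
  have e1' : Q * x1 * w1 - y1 * ((R * 1 : ℕ) : ℤ) * z1 = 1 := by rw [mul_one]; exact e1
  have e2' : R * x2 * w2 - y2 * ((Q * 1 : ℕ) : ℤ) * z2 = 1 := by rw [mul_one]; exact e2
  have d1 : 0 < (WW Q R x1 y1 z1 w1).det := by rw [WW_det e1]; exact_mod_cast hQ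
  have d2 : 0 < (WW R Q x2 y2 z2 w2).det := by rw [WW_det e2]; exact_mod_cast hR
  have hG : S2 (Q * R) (sl f (WW Q R x1 y1 z1 w1)) := S2.ww hQ e1 hf
  have hG' : S2 (R * Q) (sl f (WW Q R x1 y1 z1 w1)) := by rw [mul_comm]; exact hG
  have sR := (alw_iff (mul_comm R Q) hR f εR).1 aR _ _ _ _ e2
  have sM := (alw_iff (mul_one _) hM f ε).1 aM _ _ _ _ (ww_mul_rel hQ hR e1' e2')
  have hmul := ww_mul (Q1 := Q) (Q2 := R) (R := 1) x1 y1 z1 w1 x2 y2 z2 w2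
  rw [mul_one, mul_one] at hmul
  rw [← hmul, sl_mul _ _ _ d1 d2] at sM
  have h3 := ww_ww hR e2 hG'
  rw [sM, sl_smul, sR, smul_smul] at h3
  refine alw_of_one rfl hQ hf e1 ?_
  rw [← h3]
  push_cast
  rfl

/-- the product over the primes of a set -/
lemma alw_prod {M : ℕ} (hM : 0 < M) {g : ℍ → ℂ} (hg : S2 M g) (e : ℕ → ℝ) (s : Finset ℕ)
    (hs : ∀ p ∈ s, p.Prime ∧ p ∣ M ∧ ¬ p ^ 2 ∣ M ∧ ALw M p g (e p)) :
    (∏ p ∈ s, p) ∣ M ∧ (∏ p ∈ s, p).Coprime (M / ∏ p ∈ s, p) ∧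
      ALw M (∏ p ∈ s, p) g (∏ p ∈ s, e p) := by
  classical
  induction s using Finset.induction_on with
  | empty => simpa using alw_one hg
  | insert p s hp ih =>
    obtain ⟨i1, i2, i3⟩ := ih fun q hq => hs q (Finset.mem_insert_of_mem hq)
    obtain ⟨pp, pM, pM2, pA⟩ := hs p (Finset.mem_insert_self _ _)
    rw [Finset.prod_insert hp, Finset.prod_insert hp]
    set Q := ∏ p ∈ s, p with hQdef
    have hQpos : 0 < Q := Nat.pos_of_dvd_of_pos i1 hM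
    have hpQ : p.Coprime Q := by
      refine Nat.Coprime.prod_right fun q hq => ?_
      refine (Nat.coprime_primes pp (hs q (Finset.mem_insert_of_mem hq)).1).2 ?_
      rintro rfl
      exact hp hq
    have hdiv : p * Q ∣ M := hpQ.mul_dvd_of_dvd_of_dvd pM i1
    obtain ⟨R, hR⟩ := hdiv
    have hMQ : M / Q = p * R := by
      rw [hR, show p * Q * R = Q * (p * R) by ring, Nat.mul_div_cancel_left _ hQpos]
    have hMpQ : M / (p * Q) = R := by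
      rw [hR, Nat.mul_div_cancel_left _ (Nat.mul_pos pp.pos hQpos)]
    have hpR : p.Coprime R := by
      rw [Nat.Prime.coprime_iff_not_dvd pp]
      rintro ⟨t, rfl⟩
      exact pM2 ⟨Q * t, by rw [hR]; ring⟩
    rw [hMQ] at i2
    have hQR : Q.Coprime R := Nat.Coprime.coprime_mul_left_right i2
    refine ⟨⟨R, hR⟩, by rw [hMpQ]; exact Nat.Coprime.mul_left hpR hQR, ?_⟩
    have hc1 : p.Coprime (Q * R) := Nat.Coprime.mul_right hpQ hpR
    have hg' : S2 (p * Q * R) g := by rw [← hR]; exact hg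
    have := comp pp.pos hQpos hc1 i2 hg' (ε1 := e p) (ε2 := ∏ p ∈ s, e p)
      (by rw [← hR]; exact pA) (by rw [← hR]; exact i3)
    rw [← hR] at this
    exact this

end P004N.H461

namespace P004N.H461

open Vale.Agent.P004H.H871 (kr Fd)

/-- the newform attached to `f`, with the eigenvalues of `W_p`, `p ∥ M` -/
def StNewP : Prop := ∀ (N : ℕ) (f : ℍ → ℂ) (a : ℕ → ℤ), EF N f a →
  ∃ (M : ℕ) (g : ℍ → ℂ) (b : ℕ → ℝ) (ε : ℝ), NF M g b ε ∧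
    (∀ p : ℕ, p.Prime → p ∣ M → p ∣ N) ∧ (∀ n : ℕ, n.Coprime N → b n = a n) ∧
    ∀ p : ℕ, p.Prime → p ∣ M → ¬ p ^ 2 ∣ M → ALw M p g (-b p)

/-- pure functional equations of the twists by discriminants divisible by all `p ∥ M` -/
def StPure : Prop := ∀ (N : ℕ) (f : ℍ → ℂ) (a : ℕ → ℤ), EF N f a →
  ∃ (M : ℕ) (g : ℍ → ℂ) (b : ℕ → ℝ) (ε : ℝ) (Q : ℕ) (eQ : ℝ), NF M g b ε ∧
    (∀ p : ℕ, p.Prime → p ∣ M → p ∣ N) ∧ (∀ n : ℕ, n.Coprime N → b n = a n) ∧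
    0 < Q ∧ (eQ = 1 ∨ eQ = -1) ∧ (∀ p : ℕ, p.Prime → (p ∣ Q ↔ p ^ 2 ∣ M)) ∧
    ∀ D : ℤ, Fd D → (∀ p : ℕ, p.Prime → p ∣ M → ¬ p ^ 2 ∣ M → (p : ℤ) ∣ D) →
      IsCoprime (Q : ℤ) D →
      FEr (fun k => b k * kr D k) (Q * (D : ℝ) ^ 2 / 4) (-(eQ * (kr D (-(Q : ℤ)) : ℤ)))

lemma prod_sign (s : Finset ℕ) (e : ℕ → ℝ) (h : ∀ p ∈ s, e p = 1 ∨ e p = -1) :
    ∏ p ∈ s, e p = 1 ∨ ∏ p ∈ s, e p = -1 := by
  classical
  induction s using Finset.induction_on with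
  | empty => simp
  | insert p s hp ih =>
    rw [Finset.prod_insert hp]
    rcases h p (Finset.mem_insert_self _ _) with h1 | h1 <;>
      rcases ih (fun q hq => h q (Finset.mem_insert_of_mem hq)) with h2 | h2 <;>
      rw [h1, h2] <;> simp

theorem pure_of (hP : StNewP) : StPure := by
  classical
  intro N f a hf
  obtain ⟨M, g, b, ε, hNF, hpr, hab, hW⟩ := hP N f a hf
  have hM := hNF.pos
  set s := M.primeFactors.filter (fun p => ¬ p ^ 2 ∣ M) with hs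
  have hmem : ∀ p, p ∈ s ↔ p.Prime ∧ p ∣ M ∧ ¬ p ^ 2 ∣ M := by
    intro p
    simp only [hs, Finset.mem_filter, Nat.mem_primeFactors]
    constructor
    · rintro ⟨⟨h1, h2, -⟩, h3⟩; exact ⟨h1, h2, h3⟩
    · rintro ⟨h1, h2, h3⟩; exact ⟨⟨h1, h2, hM.ne'⟩, h3⟩
  obtain ⟨i1, i2, i3⟩ := alw_prod hM hNF.s2 (fun p => -b p) s fun p hp => by
    obtain ⟨h1, h2, h3⟩ := (hmem p).1 hp
    exact ⟨h1, h2, h3, hW p h1 h2 h3⟩
  set R := ∏ p ∈ s, p with hRdef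
  obtain ⟨Q, hQ⟩ := i1
  have hRpos : 0 < R := Nat.pos_of_ne_zero fun h => by
    rw [h, zero_mul] at hQ; exact hM.ne' hQ
  have hMR : M / R = Q := by rw [hQ, Nat.mul_div_cancel_left _ hRpos]
  rw [hMR] at i2
  have hQpos : 0 < Q := Nat.pos_of_ne_zero fun h => by
    rw [h, mul_zero] at hQ; exact hM.ne' hQ
  have hMQ : M = Q * R := by rw [hQ]; ring
  have hbs : ∀ p ∈ s, -b p = 1 ∨ -b p = -1 := by
    intro p hp
    obtain ⟨h1, h2, h3⟩ := (hmem p).1 hp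
    have := hNF.bad1 p h1 h2 h3
    rcases (by nlinarith [this] : (b p - 1) * (b p + 1) = 0) |> mul_eq_zero.1 with h4 | h4
    · right; linarith
    · left; linarith
  have hεR := prod_sign s (fun p => -b p) hbs
  have hA : ALw M Q g (ε * ∏ p ∈ s, -b p) := by
    have h1 : ALw (Q * R) (Q * R) g ε := by rw [← hMQ]; exact hNF.al
    have h2 : ALw (Q * R) R g (∏ p ∈ s, -b p) := by rw [← hMQ]; exact i3
    have := divi hQpos hRpos i2.symm (by rw [← hMQ]; exact hNF.s2) hεR h1 h2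
    rwa [← hMQ] at this
  have he : ε * ∏ p ∈ s, -b p = 1 ∨ ε * ∏ p ∈ s, -b p = -1 := by
    rcases hNF.sgn with h1 | h1 <;> rcases hεR with h2 | h2 <;> rw [h1, h2] <;> simp
  refine ⟨M, g, b, ε, Q, ε * ∏ p ∈ s, -b p, hNF, hpr, hab, hQpos, he, ?_, ?_⟩
  · intro p hp
    have hpR : p ∣ R ↔ p ∈ s := by
      constructor
      · intro h
        obtain ⟨q, hq, hpq⟩ := (Prime.dvd_finsetProd_iff hp.prime _).1 h
        rwa [(Nat.prime_dvd_prime_iff_eq hp ((hmem q).1 hq).1).1 hpq]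
      · exact fun h => Finset.dvd_prod_of_mem _ h
    constructor
    · intro h
      by_contra h2
      have h3 : p ∈ s := (hmem p).2 ⟨hp, by rw [hMQ]; exact h.mul_right _, h2⟩
      have h4 := Nat.Coprime.eq_one_of_dvd (Nat.Coprime.coprime_dvd_left (hpR.2 h3) i2) h
      exact hp.one_lt.ne' h4
    · intro h
      have h1 : p ∣ Q * R := by rw [← hMQ]; exact (dvd_pow_self p two_ne_zero).trans h
      rcases (Nat.Prime.dvd_mul hp).1 h1 with h2 | h2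
      · exact h2
      · exact absurd h ((hmem p).1 (hpR.1 h2)).2.2
  · intro D hD hpD hQD
    refine H880.fe_pure hNF.qe hA hMQ hQpos he hD hQD ?_
    have h1 : R ∣ D.natAbs := by
      refine Finset.prod_primes_dvd _ (fun p hp => ((hmem p).1 hp).1.prime) fun p hp => ?_
      obtain ⟨h1, h2, h3⟩ := (hmem p).1 hp
      exact Int.natCast_dvd.1 (hpD p h1 h2 h3)
    exact Int.natCast_dvd.2 h1

end P004N.H461

namespace P004N

open Vale.Agent.P004H.H871 (kr Fd)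

theorem pfNewP1 : H461.StNewP := by
  intro N f a hf
  obtain ⟨M, g, b, ε, h1, h2, h3, -, h5⟩ := pfNewP N f a hf 1 (Or.inl ⟨rfl, squarefree_one⟩)
  refine ⟨M, g, b, ε, h1, ?_, ?_, h5⟩
  · intro p hp hpM
    simpa using h2 p hp hpM
  · intro n hn
    rw [h3 n (by simpa using hn)]
    simp [Vale.Agent.P004H.H871.kr]

/-- **pure functional equations** -/
theorem pfPure : H461.StPure := H461.pure_of pfNewP1

end P004N
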