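import Vale.Agent.P004N.H461.Op

/-!
# Atkin-Lehner involutions and the trace
-/

open UpperHalfPlane CongruenceSubgroup
open scoped MatrixGroups ModularForm Manifold Real

namespace P004N.H461

/-- `W_Q = (Q x, y; N z, Q w)`, `N = Q R`, `Q x w - y R z = 1` -/
def WW (Q R : ℕ) (x y z w : ℤ) : M2 := !![Q * x, y; (Q * R : ℤ) * z, Q * w]

lemma WW_det {Q R : ℕ} {x y z w : ℤ} (h : Q * x * w - y * R * z = 1) : (WW Q R x y z w).det = Q := by
  rw [WW, Matrix.det_fin_two_of]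
  linear_combination (Q : ℤ) * h

lemma WW_conj {Q R : ℕ} {x y z w : ℤ} (h : Q * x * w - y * R * z = 1) (a b c d : ℤ) :
    WW Q R x y z w * !![a, b; Q * R * c, d] =
      !![(Q * x * a + y * (Q * R * c)) * w - (Q * x * b + y * d) * R * z,
        -x * y * a - y ^ 2 * R * c + (Q * x * b + y * d) * x;
        Q * R * ((z * a + Q * w * c) * w - (R * z * b + w * d) * z),
        -R * z * a * y - w * Q * R * c * y + (Q * R * z * b + Q * w * d) * x] *
        WW Q R x y z w := by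
  rw [WW]
  ext i j
  fin_cases i <;> fin_cases j
  · simp [Matrix.mul_apply]
    linear_combination (-(Q * x * a + y * (Q * R * c))) * h
  · simp [Matrix.mul_apply]
    linear_combination (-(Q * x * b + y * d)) * h
  · simp [Matrix.mul_apply]
    linear_combination (-(Q * R * z * a + Q * w * (Q * R * c))) * h
  · simp [Matrix.mul_apply]
    linear_combination (-(Q * R * z * b + Q * w * d)) * h

lemma WW_conj' {Q R : ℕ} {x y z w : ℤ} (h : Q * x * w - y * R * z = 1) (a b c d : ℤ) :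
    !![a, b; Q * R * c, d] * WW Q R x y z w =
      WW Q R x y z w * !![w * (a * Q * x + b * Q * R * z) - y * (Q * R * c * x + d * R * z),
        w * (a * y + b * Q * w) - y * (R * c * y + d * w);
        Q * R * (-z * (a * x + b * R * z) + x * (Q * c * x + d * z)),
        -R * z * (a * y + b * Q * w) + x * (Q * R * c * y + d * Q * w)] := by
  rw [WW]
  ext i j
  fin_cases i <;> fin_cases j
  · simp [Matrix.mul_apply]
    linear_combination (-(a * (Q * x) + b * (Q * R * z))) * h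
  · simp [Matrix.mul_apply]
    linear_combination (-(a * y + b * (Q * w))) * h
  · simp [Matrix.mul_apply]
    linear_combination (-(Q * R * c * (Q * x) + d * (Q * R * z))) * h
  · simp [Matrix.mul_apply]
    linear_combination (-(Q * R * c * y + d * (Q * w))) * h

/-- conjugation by `W_Q` -/
lemma conj_ex {Q R : ℕ} (hQ : 0 < Q) {x y z w : ℤ} (h : Q * x * w - y * R * z = 1) (m : M2)
    (hm : ((Q * R : ℕ) : ℤ) ∣ m 1 0) : ∃ m' : M2, m'.det = m.det ∧ ((Q * R : ℕ) : ℤ) ∣ m' 1 0 ∧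
      WW Q R x y z w * m = m' * WW Q R x y z w := by
  obtain ⟨c, hc⟩ := hm
  have e : m = !![m 0 0, m 0 1; Q * R * c, m 1 1] := by
    ext i j
    fin_cases i <;> fin_cases j
    · rfl
    · rfl
    · simpa using hc
    · rfl
  have h1 := WW_conj h (m 0 0) (m 0 1) c (m 1 1)
  rw [← e] at h1
  refine ⟨_, ?_, ?_, h1⟩
  · have h2 := congrArg Matrix.det h1
    rw [Matrix.det_mul, Matrix.det_mul, WW_det h, mul_comm] at h2
    have hQ' : (Q : ℤ) ≠ 0 := by exact_mod_cast hQ.ne'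
    exact (mul_right_cancel₀ hQ' h2).symm
  · simp

lemma conj_ex' {Q R : ℕ} (hQ : 0 < Q) {x y z w : ℤ} (h : Q * x * w - y * R * z = 1) (m : M2)
    (hm : ((Q * R : ℕ) : ℤ) ∣ m 1 0) : ∃ m' : M2, m'.det = m.det ∧ ((Q * R : ℕ) : ℤ) ∣ m' 1 0 ∧
      m * WW Q R x y z w = WW Q R x y z w * m' := by
  obtain ⟨c, hc⟩ := hm
  have e : m = !![m 0 0, m 0 1; Q * R * c, m 1 1] := by
    ext i j
    fin_cases i <;> fin_cases j
    · rfl
    · rfl
    · simpa using hc
    · rfl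
  have h1 := WW_conj' h (m 0 0) (m 0 1) c (m 1 1)
  rw [← e] at h1
  refine ⟨_, ?_, ?_, h1⟩
  · have h2 := congrArg Matrix.det h1
    rw [Matrix.det_mul, Matrix.det_mul, WW_det h, mul_comm (Q : ℤ)] at h2
    have hQ' : (Q : ℤ) ≠ 0 := by exact_mod_cast hQ.ne'
    exact (mul_right_cancel₀ hQ' h2).symm
  · simp

lemma S2.ww {Q R : ℕ} (hQ : 0 < Q) {x y z w : ℤ} (h : Q * x * w - y * R * z = 1)
    {f : ℍ → ℂ} (hf : S2 (Q * R) f) : S2 (Q * R) (sl f (WW Q R x y z w)) := by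
  refine S2.mk_sl (hf.cusp.slash _) fun γ hγ => ?_
  have hd : 0 < (WW Q R x y z w).det := by rw [WW_det h]; exact_mod_cast hQ
  obtain ⟨m', h1, h2, h3⟩ := conj_ex hQ h γ hγ.2
  have hm' : G0 (Q * R) m' := ⟨by rw [h1, hγ.1], h2⟩
  rw [← sl_mul _ _ _ hd hγ.det, h3, sl_mul _ _ _ hm'.det hd, hf.inv hm']

lemma Tp_ww {Q R : ℕ} (hQ : 0 < Q) {x y z w : ℤ} (h : Q * x * w - y * R * z = 1)
    {f : ℍ → ℂ} (hf : S2 (Q * R) f) {p : ℕ} (hp : p.Prime) (hpN : ¬ p ∣ Q * R) :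
    Tp p (sl f (WW Q R x y z w)) = sl (Tp p f) (WW Q R x y z w) := by
  have hd : 0 < (WW Q R x y z w).det := by rw [WW_det h]; exact_mod_cast hQ
  have hal : ∀ i, 0 < (al p i).det := fun i => by rw [al_det]; exact_mod_cast hp.pos
  rw [Tp, Tp, sl_sum]
  have e1 : ∀ i, sl (sl f (WW Q R x y z w)) (al p i) = sl f (WW Q R x y z w * al p i) :=
    fun i => by rw [sl_mul _ _ _ hd (hal i)]
  have e2 : ∀ i, sl (sl f (al p i)) (WW Q R x y z w) = sl f (al p i * WW Q R x y z w) :=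
    fun i => by rw [sl_mul _ _ _ (hal i) hd]
  simp only [e1, e2]
  refine coset_sum hf _ _ (fun i => ?_) (fun i => ?_) ?_
  · rw [Matrix.det_mul]; exact mul_pos (hal i) hd
  · have h10 : ((Q * R : ℕ) : ℤ) ∣ (al p i) 1 0 := by
      cases i <;> simp [al]
    obtain ⟨m', h1, h2, h3⟩ := conj_ex hQ h (al p i) h10
    obtain ⟨j, δ, hδ, h4⟩ := al_rep hp hpN m' (by rw [h1, al_det]) h2
    exact ⟨j, δ, hδ, by rw [h3, h4, Matrix.mul_assoc]⟩
  · intro i i' δ hδ h1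
    obtain ⟨δ', h2, h3, h4⟩ := conj_ex' hQ h δ hδ.2
    rw [← Matrix.mul_assoc, h4, Matrix.mul_assoc] at h1
    exact al_inj hp i i' δ' (by rw [h2, hδ.1]) (mul_left_cancel_det hd h1)

/-- `W_Q² = 1` -/
lemma ww_ww {Q R : ℕ} (hQ : 0 < Q) {x y z w : ℤ} (h : Q * x * w - y * R * z = 1)
    {f : ℍ → ℂ} (hf : S2 (Q * R) f) :
    sl (sl f (WW Q R x y z w)) (WW Q R x y z w) = f := by
  have hd : 0 < (WW Q R x y z w).det := by rw [WW_det h]; exact_mod_cast hQ
  have hQ0 : (0 : ℤ) < Q := by exact_mod_cast hQ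
  have hg : G0 (Q * R) !![Q * x ^ 2 + y * R * z, y * (x + w); (Q * R : ℤ) * (z * (x + w)),
      R * z * y + Q * w ^ 2] := by
    refine ⟨?_, by simp⟩
    rw [Matrix.det_fin_two_of]
    linear_combination (Q * x * w - y * R * z + 1) * h
  have e : WW Q R x y z w * WW Q R x y z w = !![Q * x ^ 2 + y * R * z, y * (x + w);
      (Q * R : ℤ) * (z * (x + w)), R * z * y + Q * w ^ 2] * !![(Q : ℤ), 0; 0, Q] := by
    rw [WW]
    ext i j
    fin_cases i <;> fin_cases j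
    · simp [Matrix.mul_apply]; ring
    · simp [Matrix.mul_apply]; ring
    · simp [Matrix.mul_apply]; ring
    · simp [Matrix.mul_apply]; ring
  rw [← sl_mul _ _ _ hd hd, e, sl_mul _ _ _ hg.det (by rw [Matrix.det_fin_two_of]; nlinarith),
    hf.inv hg, sl_scalar _ _ hQ0]

/-- the operator does not depend on the matrix -/
lemma ww_indep {Q R : ℕ} (hQ : 0 < Q) {x y z w x' y' z' w' : ℤ}
    (h : Q * x * w - y * R * z = 1) (h' : Q * x' * w' - y' * R * z' = 1)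
    {f : ℍ → ℂ} (hf : S2 (Q * R) f) :
    sl f (WW Q R x' y' z' w') = sl f (WW Q R x y z w) := by
  have hd : 0 < (WW Q R x y z w).det := by rw [WW_det h]; exact_mod_cast hQ
  have e : WW Q R x' y' z' w' = !![Q * x' * w - y' * R * z, x * y' - x' * y;
      (Q * R : ℤ) * (z' * w - w' * z), Q * w' * x - R * z' * y] * WW Q R x y z w := by
    rw [WW, WW]
    ext i j
    fin_cases i <;> fin_cases j
    · simp [Matrix.mul_apply]; linear_combination (-(Q * x')) * h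
    · simp [Matrix.mul_apply]; linear_combination (-y') * h
    · simp [Matrix.mul_apply]; linear_combination (-(Q * R * z')) * h
    · simp [Matrix.mul_apply]; linear_combination (-(Q * w')) * h
  have hg : G0 (Q * R) !![Q * x' * w - y' * R * z, x * y' - x' * y;
      (Q * R : ℤ) * (z' * w - w' * z), Q * w' * x - R * z' * y] := by
    refine ⟨?_, by simp⟩
    have h2 := congrArg Matrix.det e
    rw [Matrix.det_mul, WW_det h, WW_det h'] at h2
    have hQ' : (Q : ℤ) ≠ 0 := by exact_mod_cast hQ.ne'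
    exact (mul_right_cancel₀ hQ' (by rw [one_mul]; exact h2)).symm
  rw [e, sl_mul _ _ _ hg.det hd, hf.inv hg]

/-! ### newforms -/

lemma RN.ne_zero {N : ℕ} {f : ℍ → ℂ} {a : ℕ → ℤ} (h : RN N f a) : f ≠ 0 := by
  rintro rfl
  have := QE.zero_eq h.qe 1
  rw [h.one] at this
  simp at this

/-- a form with the same eigenvalues is a multiple -/
lemma RN.mult {N : ℕ} {f : ℍ → ℂ} {a : ℕ → ℤ} (h : RN N f a) {g : ℍ → ℂ} (hg : S2 N g)
    (hT : ∀ p : ℕ, p.Prime → ¬ p ∣ N → Tp p g = (a p : ℂ) • g) : ∃ κ : ℂ, g = κ • f := by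
  obtain ⟨c, hc, -⟩ := hg.qe
  obtain ⟨κ, hκ⟩ := h.uniq g c hg hc ((TE_iff hc N a).2 hT)
  exact ⟨κ, funext fun z => by rw [hκ z]; rfl⟩

lemma RN.mult' {N : ℕ} {f : ℍ → ℂ} {a : ℕ → ℤ} (h : RN N f a) {g : ℍ → ℂ} {c : ℕ → ℂ}
    (hg : S2 N g) (hc : QE g c) (hT : TE N a c) : ∃ κ : ℂ, g = κ • f := by
  obtain ⟨κ, hκ⟩ := h.uniq g c hg hc hT
  exact ⟨κ, funext fun z => by rw [hκ z]; rfl⟩

lemma RN.hecke {N : ℕ} {f : ℍ → ℂ} {a : ℕ → ℤ} (h : RN N f a) (p : ℕ) (hp : p.Prime)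
    (hpN : ¬ p ∣ N) : Tp p f = (a p : ℂ) • f := (TE_iff h.qe N a).1 h.te p hp hpN

lemma RN.ww {Q R : ℕ} {f : ℍ → ℂ} {a : ℕ → ℤ} (hf : RN (Q * R) f a) (hQ : 0 < Q) {x y z w : ℤ}
    (h : Q * x * w - y * R * z = 1) :
    ∃ ε : ℝ, (ε = 1 ∨ ε = -1) ∧ sl f (WW Q R x y z w) = (ε : ℂ) • f := by
  have hg := S2.ww hQ h hf.s2
  obtain ⟨κ, hκ⟩ := RN.mult hf hg fun p hp hpN => by
    rw [Tp_ww hQ h hf.s2 hp hpN, RN.hecke hf p hp hpN, sl_smul]
  have h2 := ww_ww hQ h hf.s2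
  rw [hκ, sl_smul, hκ, smul_smul] at h2
  obtain ⟨z0, hz0⟩ := Function.ne_iff.1 (RN.ne_zero hf)
  have h3 := congrFun h2 z0
  rw [Pi.smul_apply, smul_eq_mul] at h3
  have h4 : κ * κ = 1 := by
    have h5 : κ * κ * f z0 = 1 * f z0 := by rw [h3, one_mul]
    exact mul_right_cancel₀ hz0 h5
  rcases mul_self_eq_one_iff.1 h4 with h5 | h5
  · exact ⟨1, Or.inl rfl, by rw [hκ, h5]; simp⟩
  · exact ⟨-1, Or.inr rfl, by rw [hκ, h5]; simp⟩

/-- **Module T1b** -/
theorem pfAL : StAL := by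
  rintro N f a hf Q R rfl -
  have hQR := hf.pos
  have hQ : 0 < Q := Nat.pos_of_mul_pos_right hQR
  have hQ0 : (Q : ℤ) ≠ 0 := by exact_mod_cast hQ.ne'
  have key : ∀ x y z w : ℤ, (Q * x) * (Q * w) - y * (((Q * R : ℕ) : ℤ) * z) = (Q : ℤ) →
      Q * x * w - y * R * z = 1 := by
    intro x y z w h
    have : (Q : ℤ) * (Q * x * w - y * R * z) = Q * 1 := by
      push_cast at h
      linear_combination h
    exact mul_left_cancel₀ hQ0 this
  by_cases hex : ∃ x y z w : ℤ, Q * x * w - y * R * z = 1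
  · obtain ⟨x, y, z, w, h⟩ := hex
    obtain ⟨ε, hε, hs⟩ := RN.ww hf hQ h
    refine ⟨ε, hε, ?_⟩
    intro x' y' z' w' h' τ τ' hτ
    have h1 := key _ _ _ _ h'
    have h2 : sl f (WW Q R x' y' z' w') = (ε : ℂ) • f := by
      rw [ww_indep hQ h h1 hf.s2, hs]
    have hd : 0 < (WW Q R x' y' z' w').det := by rw [WW_det h1]; exact_mod_cast hQ
    have h3 := congrFun h2 τ
    have hne : ((Q * R : ℕ) : ℂ) * z' * τ + Q * w' ≠ 0 := by
      have := UpperHalfPlane.denom_ne_zero (gl _ hd) τ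
      rw [denom_gl] at this
      simpa [WW] using this
    rw [sl_apply f _ hd τ τ' (by rw [hτ]; simp [WW]), WW_det h1, Pi.smul_apply, smul_eq_mul] at h3
    have hQc : (Q : ℂ) ≠ 0 := by exact_mod_cast hQ.ne'
    have e1 : ((WW Q R x' y' z' w' 1 0 : ℤ) : ℂ) * τ + (WW Q R x' y' z' w' 1 1 : ℤ) =
        ((Q * R : ℕ) : ℂ) * z' * τ + Q * w' := by simp [WW]
    rw [e1] at h3
    have h4 : ∀ D : ℂ, D ≠ 0 → f τ' = f τ' * (Q : ℤ) * (D ^ 2)⁻¹ * (D ^ 2 / Q) := by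
      intro D hD
      push_cast
      field_simp
    rw [h4 _ hne, h3]
    ring
  · refine ⟨1, Or.inl rfl, ?_⟩
    intro x y z w h
    exact absurd ⟨x, y, z, w, key _ _ _ _ h⟩ hex

end P004N.H461
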