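import Vale.Agent.P004N.H461.Al

/-!
# Coefficients of rational newforms
-/

open UpperHalfPlane CongruenceSubgroup
open scoped MatrixGroups ModularForm Manifold Real

namespace P004N.H461

lemma S2.mono {M N : ℕ} (h : M ∣ N) {f : ℍ → ℂ} (hf : S2 M f) : S2 N f := by
  refine S2.mk_sl hf.cusp fun γ hγ => hf.inv ⟨hγ.1, ?_⟩
  exact (by exact_mod_cast h : (M : ℤ) ∣ (N : ℤ)).trans hγ.2

/-- a newform of level `M p` is not of level `M` -/
lemma RN.not_old {M p : ℕ} (hp : p.Prime) {f : ℍ → ℂ} {a : ℕ → ℤ} (h : RN (M * p) f a) :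
    ¬ S2 M f := by
  intro hM
  have hqe := qe_V h.qe p hp.pos
  obtain ⟨κ, hκ⟩ := RN.mult' h (S2.vp hp.pos hM) hqe (te_V hp (dvd_mul_left _ _) h.te)
  rw [hκ] at hqe
  have h1 := QE.unique hqe (QE.smul h.qe κ)
  have e1 := congrFun h1 1
  have ep := congrFun h1 p
  have hp1 : ¬ p ∣ 1 := fun hd => hp.one_lt.ne' (Nat.dvd_one.1 hd)
  simp only [if_neg hp1, h.one, Int.cast_one, mul_one] at e1
  simp only [dvd_refl, if_true, Nat.div_self hp.pos, h.one, Int.cast_one, mul_one, ← e1,
    zero_mul] at ep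
  exact hp.ne_zero (by exact_mod_cast ep)

/-- `U_p f = a_p f` -/
lemma RN.up {N p : ℕ} (hp : p.Prime) (hpN : p ∣ N) {f : ℍ → ℂ} {a : ℕ → ℤ} (h : RN N f a) :
    Up p f = (a p : ℂ) • f ∧ ∀ n, a (p * n) = a p * a n := by
  have hqe : QE (Up p f) (fun n => (a (p * n) : ℂ)) := qe_U h.qe p hp.pos
  obtain ⟨κ, hκ⟩ := RN.mult' h (S2.up hp hpN (dvd_mul_left _ _) h.s2) hqe (te_U hp hpN h.te)
  have hqe' := hqe
  rw [hκ] at hqe'
  have h1 := QE.unique hqe' (QE.smul h.qe κ)
  have e1 := congrFun h1 1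
  simp only [mul_one, h.one, Int.cast_one] at e1
  refine ⟨?_, fun n => ?_⟩
  · rw [e1]; exact hκ
  · have e2 := congrFun h1 n
    simp only [← e1] at e2
    exact_mod_cast e2

lemma RN.bad2 {N p : ℕ} (hp : p.Prime) (hpN : p ^ 2 ∣ N) {f : ℍ → ℂ} {a : ℕ → ℤ}
    (h : RN N f a) : a p = 0 := by
  obtain ⟨t, rfl⟩ := hpN
  by_contra hne
  have h1 := (RN.up hp ⟨p * t, by ring⟩ h).1
  have h2 : S2 (p * t) (Up p f) := S2.up hp ⟨t, rfl⟩ ⟨1, by ring⟩ h.s2
  have hne' : (a p : ℂ) ≠ 0 := by exact_mod_cast hne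
  have e : f = (a p : ℂ)⁻¹ • Up p f := by
    rw [h1, smul_smul, inv_mul_cancel₀ hne', one_smul]
  have h3 : S2 (p * t) f := by
    rw [e]
    refine S2.mk_sl (h2.cusp.smul _) fun γ hγ => ?_
    rw [sl_smul, h2.inv hγ]
  have h4 : RN (p * t * p) f a := by
    rw [show p * t * p = p ^ 2 * t by ring]; exact h
  exact RN.not_old hp h4 h3

/-- coset representatives of `Γ₀(M p)` in `Γ₀(M)`, `p` not dividing `M` -/
def ps (p M : ℕ) (y w : ℤ) : Option (Fin p) → M2
  | none => 1
  | some j => !![1, y; (M : ℤ), p * w] * !![1, ((j : ℕ) : ℤ); 0, 1]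

lemma ps_det {p M : ℕ} {y w : ℤ} (h : p * w - y * M = 1) (i : Option (Fin p)) :
    (ps p M y w i).det = 1 := by
  cases i with
  | none => simp [ps]
  | some j =>
    rw [ps, Matrix.det_mul, Matrix.det_fin_two_of, Matrix.det_fin_two_of]
    linear_combination h

lemma ps_10 {p M : ℕ} {y w : ℤ} (j : Fin p) : (ps p M y w (some j)) 1 0 = M := by
  simp [ps, Matrix.mul_apply]

lemma ps_11 {p M : ℕ} {y w : ℤ} (j : Fin p) :
    (ps p M y w (some j)) 1 1 = M * ((j : ℕ) : ℤ) + p * w := by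
  simp [ps, Matrix.mul_apply]

lemma coprime_dvd {p M : ℕ} (hp : p.Prime) (hpM : ¬ p ∣ M) {t : ℤ} (h1 : (p : ℤ) ∣ t)
    (h2 : (M : ℤ) ∣ t) : ((M * p : ℕ) : ℤ) ∣ t := by
  have hc : IsCoprime (M : ℤ) (p : ℤ) := by
    rw [Nat.isCoprime_iff_coprime]
    exact ((Nat.Prime.coprime_iff_not_dvd hp).2 hpM).symm
  push_cast
  exact hc.mul_dvd h2 h1

lemma ps_rep {p M : ℕ} (hp : p.Prime) (hpM : ¬ p ∣ M) {y w : ℤ} (h : p * w - y * M = 1) (δ : M2)
    (hδ : G0 M δ) : ∃ i, ∃ δ', G0 (M * p) δ' ∧ δ = δ' * ps p M y w i := by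
  have hadj : ∀ i, (ps p M y w i).adjugate * ps p M y w i = 1 := by
    intro i
    rw [Matrix.adjugate_mul, ps_det h, one_smul]
  have hd : δ 0 0 * δ 1 1 - δ 0 1 * δ 1 0 = 1 := by rw [← hδ.1, Matrix.det_fin_two]
  by_cases h0 : (p : ℤ) ∣ δ 1 0
  · refine ⟨none, δ, ⟨hδ.1, coprime_dvd hp hpM h0 hδ.2⟩, by simp [ps]⟩
  · obtain ⟨j, hj⟩ := solve hp (δ 1 0) (δ 1 1) h0
    refine ⟨some j, δ * (ps p M y w (some j)).adjugate, ⟨?_, ?_⟩, ?_⟩
    · rw [Matrix.det_mul, hδ.1, Matrix.det_adjugate, ps_det h]; simp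
    · have e : (δ * (ps p M y w (some j)).adjugate) 1 0 =
          δ 1 0 * (M * ((j : ℕ) : ℤ) + p * w) - δ 1 1 * M := by
        rw [Matrix.mul_apply, Fin.sum_univ_two, Matrix.adjugate_fin_two]
        simp only [Matrix.of_apply, Matrix.cons_val', Matrix.cons_val_zero, Matrix.cons_val_one,
          ps_10, ps_11]
        ring
      rw [e]
      refine coprime_dvd hp hpM ?_ ?_
      · obtain ⟨x, hx⟩ := hj
        exact ⟨δ 1 0 * w - M * x, by linear_combination (-(M : ℤ)) * hx⟩
      · obtain ⟨t, ht⟩ := hδ.2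
        exact ⟨t * (M * ((j : ℕ) : ℤ) + p * w) - δ 1 1, by rw [ht]; ring⟩
    · rw [Matrix.mul_assoc, hadj, Matrix.mul_one]

lemma ps_inj {p M : ℕ} (hp : p.Prime) (hpM : ¬ p ∣ M) {y w : ℤ} (h : p * w - y * M = 1)
    (i i' : Option (Fin p)) (δ : M2) (hδ : G0 (M * p) δ) (e : ps p M y w i = δ * ps p M y w i') :
    i = i' := by
  have hpM' : ¬ (p : ℤ) ∣ (M : ℤ) := by exact_mod_cast hpM
  have hdp : (p : ℤ) ∣ δ 1 0 := by
    refine Dvd.dvd.trans ?_ hδ.2
    push_cast
    exact dvd_mul_left _ _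
  have hd : δ 0 0 * δ 1 1 - δ 0 1 * δ 1 0 = 1 := by rw [← hδ.1, Matrix.det_fin_two]
  have e10 := congrFun (congrFun e 1) 0
  have e11 := congrFun (congrFun e 1) 1
  rw [Matrix.mul_apply, Fin.sum_univ_two] at e10 e11
  cases i with
  | none =>
    cases i' with
    | none => rfl
    | some j' =>
      exfalso
      have d : ps p M y w none = 1 := rfl
      rw [d, ps_10] at e10
      simp only [Matrix.one_apply_ne (show (1 : Fin 2) ≠ 0 by decide)] at e10
      have h1 : (p : ℤ) ∣ δ 1 1 * M := by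
        obtain ⟨t, ht⟩ := hdp
        rw [ht] at e10
        exact ⟨-(t * ps p M y w (some j') 0 0), by linear_combination -e10⟩
      rcases prime_dvd_mul hp h1 with h2 | h2
      · have h3 : (p : ℤ) ∣ 1 := by
          rw [← hd]
          exact dvd_sub (h2.mul_left _) (hdp.mul_left _)
        have := Int.le_of_dvd one_pos h3
        have := hp.two_le
        omega
      · exact hpM' h2
  | some j =>
    cases i' with
    | none =>
      exfalso
      have d : ps p M y w none = 1 := rfl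
      rw [d, ps_10] at e10
      simp only [Matrix.one_apply_ne (show (1 : Fin 2) ≠ 0 by decide), Matrix.one_apply_eq,
        mul_one, mul_zero, add_zero] at e10
      exact hpM' (by rw [e10]; exact hdp)
    | some j' =>
      -- `δ = ψ_j ψ_{j'}^{-1}`
      have e' : ps p M y w (some j) * (ps p M y w (some j')).adjugate = δ := by
        rw [e, Matrix.mul_assoc, Matrix.mul_adjugate, ps_det h, one_smul, Matrix.mul_one]
      have f10 := congrFun (congrFun e' 1) 0
      rw [Matrix.mul_apply, Fin.sum_univ_two, Matrix.adjugate_fin_two] at f10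
      simp only [Matrix.of_apply, Matrix.cons_val', Matrix.cons_val_zero, Matrix.cons_val_one,
          ps_10, ps_11] at f10
      have h1 : (p : ℤ) ∣ (M : ℤ) * (M * (((j : ℕ) : ℤ) - ((j' : ℕ) : ℤ))) := by
        obtain ⟨t, ht⟩ := hdp
        exact ⟨-t, by rw [ht] at f10; linear_combination -f10⟩
      have h2 := (prime_dvd_mul hp ((prime_dvd_mul hp h1).resolve_left hpM')).resolve_left hpM'
      have h3 : ((j : ℕ) : ℤ) = ((j' : ℕ) : ℤ) := by
        have b1 := j.2
        have b2 := j'.2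
        obtain ⟨t, ht⟩ := h2
        have : t = 0 := by
          by_contra hne
          rcases lt_or_gt_of_ne hne with h3 | h3
          · nlinarith
          · nlinarith
        rw [this] at ht
        linarith
      have h4 : j = j' := Fin.ext (by exact_mod_cast h3)
      rw [h4]

/-- the trace to level `M` -/
lemma S2.trace {p M : ℕ} (hp : p.Prime) (hpM : ¬ p ∣ M) {y w : ℤ} (h : p * w - y * M = 1)
    {f : ℍ → ℂ} (hf : S2 (M * p) f) : S2 M (∑ i, sl f (ps p M y w i)) := by
  refine S2.mk_sl (Cusp.sum _ _ fun j _ => hf.cusp.slash _) fun γ hγ => ?_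
  have hpos : ∀ i, 0 < (ps p M y w i).det := fun i => by rw [ps_det h]; exact one_pos
  rw [sl_sum]
  have e : ∀ i, sl (sl f (ps p M y w i)) γ = sl f (ps p M y w i * γ) := fun i => by
    rw [sl_mul _ _ _ (hpos i) hγ.det]
  simp only [e]
  refine coset_sum hf _ _ hpos (fun i => ?_) ?_
  · refine ps_rep hp hpM h _ (G0.mul ⟨ps_det h i, ?_⟩ hγ)
    cases i with
    | none => simp [ps]
    | some j => rw [ps_10]
  · intro i i' δ hδ h1
    rw [← Matrix.mul_assoc] at h1
    exact ps_inj hp hpM h i i' δ hδ (mul_right_cancel_det hγ.det h1)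

lemma RN.bad1 {M p : ℕ} (hp : p.Prime) (hpM : ¬ p ∣ M) {f : ℍ → ℂ} {a : ℕ → ℤ}
    (h : RN (M * p) f a) : (a p) ^ 2 = 1 := by
  have hp0 : (0 : ℤ) < p := by exact_mod_cast hp.pos
  -- Bezout
  have hc : IsCoprime (p : ℤ) (M : ℤ) := by
    rw [Nat.isCoprime_iff_coprime]
    exact (Nat.Prime.coprime_iff_not_dvd hp).2 hpM
  obtain ⟨w, y', hwy⟩ := hc
  have hb : p * w - (-y') * M = 1 := by linear_combination hwy
  set y := -y' with hy
  have hW : (p : ℤ) * 1 * w - y * M * 1 = 1 := by linear_combination hb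
  have h' : RN (p * M) f a := by rw [mul_comm]; exact h
  obtain ⟨ε, hε, hs⟩ := RN.ww h' hp.pos (x := 1) (z := 1) hW
  have hβ : (!![1, y; (M : ℤ), p * w] : M2).det = 1 := by
    rw [Matrix.det_fin_two_of]; linear_combination hb
  have hβp : 0 < (!![1, y; (M : ℤ), p * w] : M2).det := by rw [hβ]; exact one_pos
  have hV : 0 < (!![(p : ℤ), 0; 0, 1] : M2).det := by
    rw [Matrix.det_fin_two_of]; linarith
  have hV' : 0 < (!![1, 0; 0, (p : ℤ)] : M2).det := by
    rw [Matrix.det_fin_two_of]; linarith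
  have hW2 : WW p M 1 y 1 w = !![1, y; (M : ℤ), p * w] * !![(p : ℤ), 0; 0, 1] := by
    rw [WW]
    ext i j
    fin_cases i <;> fin_cases j <;> simp [Matrix.mul_apply]
    ring
  have hsc : !![(p : ℤ), 0; 0, 1] * !![1, 0; 0, (p : ℤ)] = !![(p : ℤ), 0; 0, p] := by
    ext i j
    fin_cases i <;> fin_cases j <;> simp [Matrix.mul_apply]
  have hβs : sl f !![1, y; (M : ℤ), p * w] = (ε : ℂ) • sl f !![1, 0; 0, (p : ℤ)] := by
    have h1 := congrArg (fun g => sl g !![1, 0; 0, (p : ℤ)]) hs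
    simp only [sl_smul] at h1
    rw [← h1, hW2, sl_mul _ _ _ hβp hV, ← sl_mul (sl f _) _ _ hV hV', hsc, sl_scalar _ _ hp0]
  have hT : ∀ j : ℤ, (!![1, j; 0, 1] : M2).det = 1 := by
    intro j; rw [Matrix.det_fin_two_of]; ring
  have htr : ∑ i, sl f (ps p M y w i) = f + (ε : ℂ) • Up p f := by
    rw [Fintype.sum_option]
    congr 1
    · rw [show ps p M y w none = 1 from rfl, sl_one]
    · rw [Up, Finset.smul_sum]
      refine Finset.sum_congr rfl fun j _ => ?_
      rw [ps, sl_mul _ _ _ hβp (by rw [hT]; exact one_pos), hβs, sl_smul,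
        ← sl_mul _ _ _ hV' (by rw [hT]; exact one_pos)]
      congr 2
      ext i k
      fin_cases i <;> fin_cases k <;> simp [Matrix.mul_apply]
  have hS := S2.trace hp hpM hb h.s2
  rw [htr, (RN.up hp (dvd_mul_left _ _) h).1, smul_smul] at hS
  have h1 : 1 + (ε : ℂ) * a p = 0 := by
    by_contra hne
    have e : f = (1 + (ε : ℂ) * a p)⁻¹ • (f + ((ε : ℂ) * a p) • f) := by
      rw [show f + ((ε : ℂ) * a p) • f = (1 + (ε : ℂ) * a p) • f by rw [add_smul, one_smul],
        smul_smul, inv_mul_cancel₀ hne, one_smul]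
    have h3 : S2 M f := by
      rw [e]
      refine S2.mk_sl (hS.cusp.smul _) fun γ hγ => ?_
      rw [sl_smul, hS.inv hγ]
    exact RN.not_old hp h h3
  have h2 : (1 : ℝ) + ε * a p = 0 := by exact_mod_cast h1
  have h3 : ((a p : ℤ) : ℝ) ^ 2 = 1 := by
    rcases hε with rfl | rfl
    · have : ((a p : ℤ) : ℝ) = -1 := by linarith
      rw [this]; norm_num
    · have : ((a p : ℤ) : ℝ) = 1 := by linarith
      rw [this]; norm_num
  exact_mod_cast h3

/-- **Module T1a** -/
theorem pfCf : StCf := by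
  intro N f a h
  have good : ∀ p : ℕ, p.Prime → ¬ p ∣ N → ∀ n : ℕ,
      a (p * n) + (if p ∣ n then (p : ℤ) * a (n / p) else 0) = a p * a n := by
    intro p hp hpN n
    have h1 := h.te p hp hpN n
    simp only at h1
    split_ifs with hd
    · rw [if_pos hd] at h1
      exact_mod_cast h1
    · rw [if_neg hd] at h1
      exact_mod_cast h1
  have bad : ∀ p : ℕ, p.Prime → p ∣ N → ∀ n : ℕ, a (p * n) = a p * a n :=
    fun p hp hpN => (RN.up hp hpN h).2
  have hgood : ∀ p : ℕ, p.Prime → ¬ p ∣ N → ∀ k : ℕ,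
      a (p ^ (k + 2)) = a p * a (p ^ (k + 1)) - p * a (p ^ k) := by
    intro p hp hpN k
    have h1 := good p hp hpN (p ^ (k + 1))
    rw [if_pos (dvd_pow_self p (Nat.succ_ne_zero k)), show p ^ (k + 1) / p = p ^ k by
      rw [pow_succ, Nat.mul_div_cancel _ hp.pos], show p * p ^ (k + 1) = p ^ (k + 2) by ring] at h1
    linarith
  have hbad : ∀ p : ℕ, p.Prime → p ∣ N → ∀ k : ℕ, a (p ^ (k + 1)) = a p * a (p ^ k) := by
    intro p hp hpN k
    rw [pow_succ', bad p hp hpN]
  -- prime powers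
  have hpp : ∀ p : ℕ, p.Prime → ∀ n : ℕ, ¬ p ∣ n → ∀ k : ℕ, a (p ^ k * n) = a (p ^ k) * a n := by
    intro p hp n hn k
    by_cases hpN : p ∣ N
    · induction k with
      | zero => simp [h.one]
      | succ k ih =>
        rw [pow_succ', mul_assoc, bad p hp hpN, ih, bad p hp hpN]
        ring
    · induction k using Nat.strong_induction_on with
      | _ k ih =>
        match k with
        | 0 => simp [h.one]
        | 1 =>
          have h1 := good p hp hpN n
          rw [if_neg hn] at h1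
          rw [pow_one]
          linarith
        | k + 2 =>
          have i1 := ih (k + 1) (by omega)
          have i0 := ih k (by omega)
          have h1 := good p hp hpN (p ^ (k + 1) * n)
          have hd : p ∣ p ^ (k + 1) * n := (dvd_pow_self p (Nat.succ_ne_zero k)).mul_right _
          rw [if_pos hd, show p ^ (k + 1) * n / p = p ^ k * n by
            rw [show p ^ (k + 1) * n = p * (p ^ k * n) by ring, Nat.mul_div_cancel_left _ hp.pos],
            show p * (p ^ (k + 1) * n) = p ^ (k + 2) * n by ring, i1, i0] at h1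
          rw [hgood p hp hpN k]
          linear_combination h1
  refine ⟨h.zero, h.one, ?_, hgood, hbad, ?_, fun p hp hpN => RN.bad2 hp hpN h⟩
  · intro m
    induction m using Nat.recOnPosPrimePosCoprime with
    | prime_pow p k hp hk =>
      intro n hn
      refine hpp p hp n ?_ k
      intro hd
      have h1 := Nat.Coprime.eq_one_of_dvd (Nat.Coprime.coprime_dvd_left
        (dvd_pow_self p hk.ne') hn) hd
      exact hp.one_lt.ne' h1
    | zero =>
      intro n hn
      have : n = 1 := by simpa using hn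
      rw [this]; simp [h.zero]
    | one => intro n _; simp [h.one]
    | coprime u v hu hv huv ihu ihv =>
      intro n hn
      have h1 : u.Coprime n := Nat.Coprime.coprime_dvd_left (dvd_mul_right _ _) hn
      have h2 : v.Coprime n := Nat.Coprime.coprime_dvd_left (dvd_mul_left _ _) hn
      rw [mul_assoc, ihu (v * n) (Nat.Coprime.mul_right huv h1), ihv n h2, ihu v huv]
      ring
  · intro p hp hpN hp2
    obtain ⟨M, rfl⟩ := hpN
    have hpM : ¬ p ∣ M := by
      rintro ⟨t, rfl⟩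
      exact hp2 ⟨t, by ring⟩
    refine RN.bad1 hp hpM (f := f) ?_
    rw [mul_comm]; exact h

end P004N.H461
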