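import Vale.Agent.P004N.H461.Qe

/-!
# Coset sums: Hecke operators, the operators `U_p`, `V_p`, the involutions `W_Q`
-/

open UpperHalfPlane CongruenceSubgroup
open scoped MatrixGroups ModularForm Manifold Real

namespace P004N.H461

lemma G0.mul {N : ℕ} {m n : M2} (hm : G0 N m) (hn : G0 N n) : G0 N (m * n) := by
  refine ⟨by rw [Matrix.det_mul, hm.1, hn.1, one_mul], ?_⟩
  have : (m * n) 1 0 = m 1 0 * n 0 0 + m 1 1 * n 1 0 := by
    simp [Matrix.mul_apply]
  rw [this]
  exact dvd_add (hm.2.mul_right _) (hn.2.mul_left _)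

lemma G0.adj {N : ℕ} {m : M2} (hm : G0 N m) : G0 N m.adjugate := by
  refine ⟨by simp [Matrix.det_adjugate, hm.1], ?_⟩
  rw [Matrix.adjugate_fin_two]
  simpa using hm.2

lemma G0.adj_mul {N : ℕ} {m : M2} (hm : G0 N m) : m.adjugate * m = 1 := by
  rw [Matrix.adjugate_mul, hm.1, one_smul]

lemma G0.mul_adj {N : ℕ} {m : M2} (hm : G0 N m) : m * m.adjugate = 1 := by
  rw [Matrix.mul_adjugate, hm.1, one_smul]

/-- independence of the choice of coset representatives -/
lemma coset_sum {ι : Type*} [Fintype ι] {N : ℕ} {f : ℍ → ℂ} (hf : S2 N f) (α β : ι → M2)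
    (hβ : ∀ i, 0 < (β i).det)
    (h1 : ∀ i, ∃ j, ∃ δ : M2, G0 N δ ∧ α i = δ * β j)
    (h2 : ∀ i i' (δ : M2), G0 N δ → α i = δ * α i' → i = i') :
    ∑ i, sl f (α i) = ∑ i, sl f (β i) := by
  choose P δ hδ hP using h1
  have hinj : Function.Injective P := by
    intro i i' h
    refine h2 i i' (δ i * (δ i').adjugate) ((hδ i).mul (hδ i').adj) ?_
    rw [hP i', hP i, h, Matrix.mul_assoc, ← Matrix.mul_assoc _ (δ i'), (hδ i').adj_mul,
      Matrix.one_mul]
  have hbij : Function.Bijective P := Finite.injective_iff_bijective.1 hinj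
  rw [← (Equiv.ofBijective P hbij).sum_comp (fun i => sl f (β i))]
  refine Finset.sum_congr rfl fun i _ => ?_
  rw [Equiv.ofBijective_apply, hP i, sl_mul _ _ _ (hδ i).det (hβ _), hf.inv (hδ i)]

lemma solve {p : ℕ} (hp : p.Prime) (a b : ℤ) (h : ¬ (p : ℤ) ∣ a) :
    ∃ j : Fin p, (p : ℤ) ∣ b - ((j : ℕ) : ℤ) * a := by
  have := Fact.mk hp
  have ha : (a : ZMod p) ≠ 0 := by
    intro h0
    exact h ((ZMod.intCast_zmod_eq_zero_iff_dvd _ _).1 h0)
  refine ⟨⟨((b : ZMod p) * (a : ZMod p)⁻¹).val, ZMod.val_lt _⟩, ?_⟩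
  rw [← ZMod.intCast_zmod_eq_zero_iff_dvd]
  push_cast
  rw [ZMod.natCast_zmod_val, mul_assoc, inv_mul_cancel₀ ha, mul_one, sub_self]

/-- the representatives of `T_p` -/
def al (p : ℕ) : Option (Fin p) → M2
  | none => !![(p : ℤ), 0; 0, 1]
  | some j => !![1, ((j : ℕ) : ℤ); 0, (p : ℤ)]

lemma al_det (p : ℕ) (i : Option (Fin p)) : (al p i).det = p := by
  cases i <;> simp [al, Matrix.det_fin_two_of]

lemma prime_dvd_mul {p : ℕ} (hp : p.Prime) {a b : ℤ} (h : (p : ℤ) ∣ a * b) :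
    (p : ℤ) ∣ a ∨ (p : ℤ) ∣ b := (Nat.prime_iff_prime_int.1 hp).dvd_or_dvd h

/-- if `δ * (1, j; 0, p)` should be `m` -/
lemma factor_some {p : ℕ} (j : ℤ) (m : M2) (x y : ℤ) (h0 : m 0 1 = j * m 0 0 + p * x)
    (h1 : m 1 1 = j * m 1 0 + p * y) :
    m = !![m 0 0, x; m 1 0, y] * !![1, j; 0, (p : ℤ)] := by
  ext a b
  fin_cases a <;> fin_cases b
  · simp [Matrix.mul_apply]
  · simp [Matrix.mul_apply]; rw [h0]; ring
  · simp [Matrix.mul_apply]
  · simp [Matrix.mul_apply]; rw [h1]; ring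

lemma det_of_mul {p : ℕ} (hp : 0 < p) {m δ β : M2} (h : m = δ * β) (hm : m.det = p)
    (hβ : β.det = p) : δ.det = 1 := by
  have h1 : δ.det * p = 1 * p := by
    calc δ.det * p = (δ * β).det := by rw [Matrix.det_mul, hβ]
      _ = 1 * p := by rw [← h, hm, one_mul]
  exact mul_right_cancel₀ (by exact_mod_cast hp.ne') h1

lemma al_rep {N p : ℕ} (hp : p.Prime) (hpN : ¬ p ∣ N) (m : M2) (hd : m.det = p)
    (hN : (N : ℤ) ∣ m 1 0) : ∃ j : Option (Fin p), ∃ δ : M2, G0 N δ ∧ m = δ * al p j := by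
  have hdet : m 0 0 * m 1 1 - m 0 1 * m 1 0 = p := by rw [← hd, Matrix.det_fin_two]
  by_cases h0 : (p : ℤ) ∣ m 0 0
  · by_cases h1 : (p : ℤ) ∣ m 1 0
    · obtain ⟨x, hx⟩ := h0
      obtain ⟨y, hy⟩ := h1
      have hm : m = !![x, m 0 1; y, m 1 1] * al p none := by
        ext a b
        fin_cases a <;> fin_cases b
        · simp [al, Matrix.mul_apply]; rw [hx]; ring
        · simp [al, Matrix.mul_apply]
        · simp [al, Matrix.mul_apply]; rw [hy]; ring
        · simp [al, Matrix.mul_apply]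
      refine ⟨none, !![x, m 0 1; y, m 1 1], ⟨det_of_mul hp.pos hm hd (al_det _ _), ?_⟩, hm⟩
      simp only [Matrix.of_apply, Matrix.cons_val', Matrix.cons_val_zero, Matrix.cons_val_one]
      rw [hy] at hN
      have hc : IsCoprime (N : ℤ) (p : ℤ) := by
        rw [Nat.isCoprime_iff_coprime]
        exact ((Nat.Prime.coprime_iff_not_dvd hp).2 hpN).symm
      exact hc.dvd_of_dvd_mul_left hN
    · obtain ⟨j, x, hj⟩ := solve hp (m 1 0) (m 1 1) h1
      have h2 : (p : ℤ) ∣ m 1 0 * (m 0 1 - ((j : ℕ) : ℤ) * m 0 0) := by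
        obtain ⟨t, ht⟩ := h0
        refine ⟨x * m 0 0 - 1, ?_⟩
        have : m 1 1 = (j : ℕ) * m 1 0 + p * x := by linear_combination hj
        rw [this] at hdet
        linear_combination -hdet
      obtain ⟨y, hy⟩ := (prime_dvd_mul hp h2).resolve_left h1
      have hm := factor_some (p := p) ((j : ℕ) : ℤ) m y x (by linear_combination hy)
        (by linear_combination hj)
      refine ⟨some j, _, ⟨det_of_mul hp.pos hm hd (by simp [Matrix.det_fin_two_of]), ?_⟩, hm⟩
      simpa using hN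
  · obtain ⟨j, x, hj⟩ := solve hp (m 0 0) (m 0 1) h0
    have h2 : (p : ℤ) ∣ m 0 0 * (m 1 1 - ((j : ℕ) : ℤ) * m 1 0) := by
      refine ⟨x * m 1 0 + 1, ?_⟩
      have : m 0 1 = (j : ℕ) * m 0 0 + p * x := by linear_combination hj
      rw [this] at hdet
      linear_combination hdet
    obtain ⟨y, hy⟩ := (prime_dvd_mul hp h2).resolve_left h0
    have hm := factor_some (p := p) ((j : ℕ) : ℤ) m x y (by linear_combination hj)
      (by linear_combination hy)
    refine ⟨some j, _, ⟨det_of_mul hp.pos hm hd (by simp [Matrix.det_fin_two_of]), ?_⟩, hm⟩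
    simpa using hN

lemma al_inj {p : ℕ} (hp : p.Prime) (i i' : Option (Fin p)) (δ : M2) (hδ : δ.det = 1)
    (h : al p i = δ * al p i') : i = i' := by
  have hp1 : (1 : ℤ) < p := by exact_mod_cast hp.one_lt
  have hd : δ 0 0 * δ 1 1 - δ 0 1 * δ 1 0 = 1 := by rw [← hδ, Matrix.det_fin_two]
  have e00 := congrFun (congrFun h 0) 0
  have e01 := congrFun (congrFun h 0) 1
  have e10 := congrFun (congrFun h 1) 0
  have e11 := congrFun (congrFun h 1) 1
  cases i with
  | none =>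
    cases i' with
    | none => rfl
    | some j' =>
      exfalso
      simp [al, Matrix.mul_apply] at e00 e01 e10 e11
      rw [← e00, ← e10] at hd
      simp at hd
      have : (p : ℤ) ∣ 1 := ⟨_, hd.symm⟩
      have := Int.le_of_dvd one_pos this
      omega
  | some j =>
    cases i' with
    | none =>
      exfalso
      simp [al, Matrix.mul_apply] at e00 e01 e10 e11
      have : (p : ℤ) ∣ 1 := ⟨δ 0 0, by rw [e00]; ring⟩
      have := Int.le_of_dvd one_pos this
      omega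
    | some j' =>
      simp [al, Matrix.mul_apply] at e00 e01 e10 e11
      rw [← e00] at e01
      have h1 : (p : ℤ) ∣ ((j : ℕ) : ℤ) - ((j' : ℕ) : ℤ) := ⟨δ 0 1, by rw [e01]; ring⟩
      have h2 : ((j : ℕ) : ℤ) = ((j' : ℕ) : ℤ) := by
        have b1 := j.2
        have b2 := j'.2
        obtain ⟨t, ht⟩ := h1
        have : t = 0 := by
          by_contra hne
          rcases lt_or_gt_of_ne hne with h3 | h3
          · nlinarith
          · nlinarith
        rw [this] at ht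
        linarith
      have h3 : j = j' := Fin.ext (by exact_mod_cast h2)
      rw [h3]

/-- the Hecke operator `T_p` -/
noncomputable def Tp (p : ℕ) (f : ℍ → ℂ) : ℍ → ℂ := ∑ i : Option (Fin p), sl f (al p i)

/-- the operator `U_p` -/
noncomputable def Up (p : ℕ) (f : ℍ → ℂ) : ℍ → ℂ :=
  ∑ j : Fin p, sl f !![1, ((j : ℕ) : ℤ); 0, (p : ℤ)]

lemma Tp_eq (p : ℕ) (f : ℍ → ℂ) : Tp p f = sl f !![(p : ℤ), 0; 0, 1] + Up p f := by
  rw [Tp, Fintype.sum_option]
  rfl

lemma qe_T {f : ℍ → ℂ} {c : ℕ → ℂ} (hf : QE f c) (p : ℕ) (hp : 0 < p) :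
    QE (Tp p f) (fun n => c (p * n) + (if p ∣ n then (p : ℂ) * c (n / p) else 0)) := by
  rw [Tp_eq]
  have := QE.add (qe_U hf p hp) (qe_V hf p hp)
  rw [add_comm]
  exact this

/-- Hecke eigenvalues, in terms of the operators -/
lemma TE_iff {f : ℍ → ℂ} {c : ℕ → ℂ} (hf : QE f c) (S : ℕ) (a : ℕ → ℤ) :
    TE S a c ↔ ∀ p : ℕ, p.Prime → ¬ p ∣ S → Tp p f = (a p : ℂ) • f := by
  constructor
  · intro h p hp hpS
    refine QE.ext (qe_T hf p hp.pos) ?_
    have e : (fun n => c (p * n) + (if p ∣ n then (p : ℂ) * c (n / p) else 0)) =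
        fun n => (a p : ℂ) * c n := funext fun n => h p hp hpS n
    rw [e]
    exact QE.smul hf _
  · intro h p hp hpS n
    have h1 := qe_T hf p hp.pos
    rw [h p hp hpS] at h1
    exact congrFun (QE.unique h1 (QE.smul hf _)) n

lemma mul_right_cancel_det {m n g : M2} (hg : 0 < g.det) (h : m * g = n * g) : m = n := by
  have h1 : m * g * g.adjugate = n * g * g.adjugate := by rw [h]
  rw [Matrix.mul_assoc, Matrix.mul_assoc, Matrix.mul_adjugate] at h1
  simp only [Matrix.mul_smul, Matrix.mul_one] at h1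
  ext i j
  have h2 := congrFun (congrFun h1 i) j
  simp only [Matrix.smul_apply, smul_eq_mul] at h2
  exact mul_left_cancel₀ hg.ne' h2

lemma mul_left_cancel_det {m n g : M2} (hg : 0 < g.det) (h : g * m = g * n) : m = n := by
  have h1 : g.adjugate * (g * m) = g.adjugate * (g * n) := by rw [h]
  rw [← Matrix.mul_assoc, ← Matrix.mul_assoc, Matrix.adjugate_mul] at h1
  simp only [Matrix.smul_mul, Matrix.one_mul] at h1
  ext i j
  have h2 := congrFun (congrFun h1 i) j
  simp only [Matrix.smul_apply, smul_eq_mul] at h2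
  exact mul_left_cancel₀ hg.ne' h2

/-- `U_p`: levels. -/
lemma S2.up {N M p : ℕ} (hp : p.Prime) (hpM : p ∣ M) (hN : N ∣ p * M) {f : ℍ → ℂ}
    (hf : S2 N f) : S2 M (Up p f) := by
  refine S2.mk_sl (Cusp.sum _ _ fun j _ => hf.cusp.slash _) fun γ hγ => ?_
  have hp0 : (0 : ℤ) < p := by exact_mod_cast hp.pos
  have hdp : ∀ j : ℤ, (!![1, j; 0, (p : ℤ)] : M2).det = p := by
    intro j; simp [Matrix.det_fin_two_of]
  rw [Up, sl_sum]
  have e : ∀ j : Fin p, sl (sl f !![1, ((j : ℕ) : ℤ); 0, (p : ℤ)]) γ =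
      sl f (!![1, ((j : ℕ) : ℤ); 0, (p : ℤ)] * γ) := by
    intro j
    rw [sl_mul _ _ _ (by rw [hdp]; exact hp0) hγ.det]
  simp only [e]
  obtain ⟨hγ1, hγ2⟩ := hγ
  have hpγ : (p : ℤ) ∣ γ 1 0 := (by exact_mod_cast hpM : (p : ℤ) ∣ (M : ℤ)).trans hγ2
  have hγd : γ 0 0 * γ 1 1 - γ 0 1 * γ 1 0 = 1 := by rw [← hγ1, Matrix.det_fin_two]
  refine coset_sum hf _ _ (fun j => by rw [hdp]; exact hp0) (fun j => ?_) ?_
  · set m : M2 := !![1, ((j : ℕ) : ℤ); 0, (p : ℤ)] * γ with hm
    have m00 : m 0 0 = γ 0 0 + (j : ℕ) * γ 1 0 := by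
      rw [hm, Matrix.mul_apply, Fin.sum_univ_two]; simp
    have m01 : m 0 1 = γ 0 1 + (j : ℕ) * γ 1 1 := by
      rw [hm, Matrix.mul_apply, Fin.sum_univ_two]; simp
    have m10 : m 1 0 = p * γ 1 0 := by
      rw [hm, Matrix.mul_apply, Fin.sum_univ_two]; simp
    have m11 : m 1 1 = p * γ 1 1 := by
      rw [hm, Matrix.mul_apply, Fin.sum_univ_two]; simp
    have h0 : ¬ (p : ℤ) ∣ m 0 0 := by
      rw [m00]
      intro h
      have h1 : (p : ℤ) ∣ γ 0 0 := (Int.dvd_add_left (hpγ.mul_left _)).1 h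
      have h2 : (p : ℤ) ∣ 1 := by
        rw [← hγd]
        exact dvd_sub (h1.mul_right _) (hpγ.mul_left _)
      have h3 := Int.le_of_dvd one_pos h2
      have h4 := hp.two_le
      omega
    obtain ⟨j', x, hj⟩ := solve hp (m 0 0) (m 0 1) h0
    have hm2 := factor_some (p := p) ((j' : ℕ) : ℤ) m x (γ 1 1 - (j' : ℕ) * γ 1 0)
      (by linear_combination hj) (by rw [m11, m10]; ring)
    refine ⟨j', _, ⟨det_of_mul hp.pos hm2 ?_ (hdp _), ?_⟩, hm2⟩
    · rw [hm, Matrix.det_mul, hdp, hγ1, mul_one]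
    · simp only [Matrix.of_apply, Matrix.cons_val', Matrix.cons_val_zero, Matrix.cons_val_one]
      rw [m10]
      have h5 : (N : ℤ) ∣ (p : ℤ) * (M : ℤ) := by exact_mod_cast hN
      exact h5.trans (mul_dvd_mul_left _ hγ2)
  · intro j j' δ hδ h
    rw [← Matrix.mul_assoc] at h
    have h1 := mul_right_cancel_det (by rw [hγ1]; exact one_pos) h
    have := al_inj hp (some j) (some j') δ hδ.1 h1
    exact Option.some_injective _ this

/-- `V_p`: levels -/
lemma S2.vp {M p : ℕ} (hp : 0 < p) {f : ℍ → ℂ} (hf : S2 M f) :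
    S2 (M * p) (sl f !![(p : ℤ), 0; 0, 1]) := by
  refine S2.mk_sl (hf.cusp.slash _) fun γ hγ => ?_
  obtain ⟨hγ1, t, ht⟩ := hγ
  have hd : 0 < (!![(p : ℤ), 0; 0, 1] : M2).det := by
    simp [Matrix.det_fin_two_of]; exact_mod_cast hp
  have hp0 : (0 : ℤ) < p := by exact_mod_cast hp
  rw [← sl_mul _ _ _ hd (by rw [hγ1]; exact one_pos)]
  have e : !![(p : ℤ), 0; 0, 1] * γ = !![γ 0 0, p * γ 0 1; M * t, γ 1 1] * !![(p : ℤ), 0; 0, 1] := by
    ext a b
    fin_cases a <;> fin_cases b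
    · simp [Matrix.mul_apply]; ring
    · simp [Matrix.mul_apply]
    · simp [Matrix.mul_apply]; rw [ht]; push_cast; ring
    · simp [Matrix.mul_apply]
  have hg : G0 M !![γ 0 0, p * γ 0 1; M * t, γ 1 1] := by
    refine ⟨?_, by simp⟩
    rw [Matrix.det_fin_two_of, ← hγ1, Matrix.det_fin_two, ht]
    push_cast
    ring
  rw [e, sl_mul _ _ _ hg.det hd, hf.inv hg]

lemma te_U {S p : ℕ} {a : ℕ → ℤ} {c : ℕ → ℂ} (hp : p.Prime) (hpS : p ∣ S) (h : TE S a c) :
    TE S a (fun n => c (p * n)) := by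
  intro q hq hqS n
  have hpq : p ≠ q := by
    rintro rfl
    exact hqS hpS
  have h1 := h q hq hqS (p * n)
  have hdvd : q ∣ p * n ↔ q ∣ n := by
    constructor
    · intro h2
      rcases (Nat.Prime.dvd_mul hq).1 h2 with h3 | h3
      · exact absurd ((Nat.prime_dvd_prime_iff_eq hq hp).1 h3).symm hpq
      · exact h3
    · exact fun h2 => h2.mul_left _
  show c (p * (q * n)) + (if q ∣ n then (q : ℂ) * c (p * (n / q)) else 0) = a q * c (p * n)
  rw [show p * (q * n) = q * (p * n) by ring]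
  by_cases hn : q ∣ n
  · obtain ⟨t, rfl⟩ := hn
    rw [if_pos (hdvd.2 ⟨t, rfl⟩)] at h1
    rw [if_pos ⟨t, rfl⟩, ← h1]
    rw [show p * (q * t) / q = p * t by
      rw [show p * (q * t) = q * (p * t) by ring, Nat.mul_div_cancel_left _ hq.pos],
      Nat.mul_div_cancel_left _ hq.pos]
  · rw [if_neg (fun h2 => hn (hdvd.1 h2))] at h1
    rw [if_neg hn, ← h1]

lemma te_V {S p : ℕ} {a : ℕ → ℤ} {c : ℕ → ℂ} (hp : p.Prime) (hpS : p ∣ S) (h : TE S a c) :
    TE S a (fun n => if p ∣ n then (p : ℂ) * c (n / p) else 0) := by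
  intro q hq hqS n
  have hpq : p ≠ q := by
    rintro rfl
    exact hqS hpS
  have hdvd : p ∣ q * n ↔ p ∣ n := by
    constructor
    · intro h2
      rcases (Nat.Prime.dvd_mul hp).1 h2 with h3 | h3
      · exact absurd ((Nat.prime_dvd_prime_iff_eq hp hq).1 h3) hpq
      · exact h3
    · exact fun h2 => h2.mul_left _
  by_cases hn : p ∣ n
  · obtain ⟨m, rfl⟩ := hn
    have h1 := h q hq hqS m
    have hdq : q ∣ p * m ↔ q ∣ m := by
      constructor
      · intro h2
        rcases (Nat.Prime.dvd_mul hq).1 h2 with h3 | h3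
        · exact absurd ((Nat.prime_dvd_prime_iff_eq hq hp).1 h3).symm hpq
        · exact h3
      · exact fun h2 => h2.mul_left _
    have e1 : q * (p * m) / p = q * m := by
      rw [show q * (p * m) = p * (q * m) by ring, Nat.mul_div_cancel_left _ hp.pos]
    have e2 : p * m / p = m := Nat.mul_div_cancel_left _ hp.pos
    simp only [hdvd, dvd_mul_right, if_true, e1, e2]
    by_cases hqm : q ∣ m
    · obtain ⟨t, rfl⟩ := hqm
      have e3 : p * (q * t) / q = p * t := by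
        rw [show p * (q * t) = q * (p * t) by ring, Nat.mul_div_cancel_left _ hq.pos]
      have e4 : q * t / q = t := Nat.mul_div_cancel_left _ hq.pos
      have e5 : p * t / p = t := Nat.mul_div_cancel_left _ hp.pos
      simp only [dvd_mul_right, if_true, e4] at h1
      rw [if_pos (hdq.2 ⟨t, rfl⟩)]
      simp only [e3, dvd_mul_right, if_true, e5]
      linear_combination (p : ℂ) * h1
    · rw [if_neg hqm] at h1
      rw [if_neg (fun h2 => hqm (hdq.1 h2))]
      linear_combination (p : ℂ) * h1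
  · simp only [hdvd, if_neg hn, mul_zero, zero_add]
    by_cases hqn : q ∣ n
    · rw [if_pos hqn]
      obtain ⟨t, rfl⟩ := hqn
      rw [Nat.mul_div_cancel_left _ hq.pos, if_neg (fun h2 => hn (h2.mul_left _)), mul_zero]
    · rw [if_neg hqn]

end P004N.H461
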