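import Vale.Agent.P004N.H461.Sl

/-!
# Expansions at infinity
-/

open UpperHalfPlane CongruenceSubgroup
open scoped MatrixGroups ModularForm Manifold Real

namespace P004N.H461

/-- `e n z = exp (2 π i n z)` -/
noncomputable def ee (n : ℕ) (z : ℂ) : ℂ := Complex.exp (2 * π * Complex.I * n * z)

lemma QE_iff (f : ℍ → ℂ) (c : ℕ → ℂ) : QE f c ↔ ∀ z : ℍ, HasSum (fun n => c n * ee n z) (f z) :=
  Iff.rfl

lemma ee_eq_pow (n : ℕ) (z : ℂ) : ee n z = Function.Periodic.qParam 1 z ^ n := by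
  rw [ee, Function.Periodic.qParam, ← Complex.exp_nat_mul]
  congr 1
  push_cast
  ring

lemma QE_iff' (f : ℍ → ℂ) (c : ℕ → ℂ) : QE f c ↔ ∀ z : ℍ,
    HasSum (fun n => c n • Function.Periodic.qParam 1 z ^ n) (f z) := by
  rw [QE_iff]
  simp only [ee_eq_pow, smul_eq_mul]

lemma QE.add {f g : ℍ → ℂ} {c d : ℕ → ℂ} (hf : QE f c) (hg : QE g d) :
    QE (f + g) (fun n => c n + d n) := by
  intro z
  simpa [add_mul] using (hf z).add (hg z)

lemma QE.smul {f : ℍ → ℂ} {c : ℕ → ℂ} (hf : QE f c) (k : ℂ) :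
    QE (k • f) (fun n => k * c n) := by
  intro z
  simpa [mul_assoc] using (hf z).mul_left k

lemma QE.sub {f g : ℍ → ℂ} {c d : ℕ → ℂ} (hf : QE f c) (hg : QE g d) :
    QE (f - g) (fun n => c n - d n) := by
  intro z
  simpa [sub_mul] using (hf z).sub (hg z)

lemma per_zero : Function.Periodic ((0 : ℍ → ℂ) ∘ ofComplex) ((1 : ℝ) : ℂ) := by
  intro w
  simp

lemma bdd_zero : IsBoundedAtImInfty (0 : ℍ → ℂ) := (Filter.zero_zeroAtFilter _).boundedAtFilter

lemma ana_zero : AnalyticAt ℂ (cuspFunction 1 (0 : ℍ → ℂ)) 0 :=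
  UpperHalfPlane.analyticAt_cuspFunction_zero (h := 1) one_pos per_zero mdifferentiable_const
    bdd_zero

lemma QE.zero_eq {c : ℕ → ℂ} (h : QE (0 : ℍ → ℂ) c) (n : ℕ) : c n = 0 := by
  have h1 := UpperHalfPlane.hasFPowerSeriesOnBall_cuspFunction one_pos ana_zero
    ((QE_iff' _ _).1 h)
  have h0 : ∀ τ : ℍ, HasSum (fun m : ℕ => (0 : ℂ) • Function.Periodic.qParam 1 τ ^ m)
      ((0 : ℍ → ℂ) τ) := by
    intro τ
    simp [hasSum_zero]
  have h2 := UpperHalfPlane.hasFPowerSeriesOnBall_cuspFunction one_pos ana_zero h0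
  have h3 := h1.hasFPowerSeriesAt.eq_formalMultilinearSeries h2.hasFPowerSeriesAt
  have h4 := congr_arg (FormalMultilinearSeries.coeff · n) h3
  simpa [FormalMultilinearSeries.coeff_ofScalars] using h4

lemma QE.unique {f : ℍ → ℂ} {c d : ℕ → ℂ} (hc : QE f c) (hd : QE f d) : c = d := by
  funext n
  have h := QE.sub hc hd
  rw [sub_self] at h
  exact sub_eq_zero.1 (QE.zero_eq h n)

lemma QE.ext {f g : ℍ → ℂ} {c : ℕ → ℂ} (hf : QE f c) (hg : QE g c) : f = g := by
  funext z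
  exact (hf z).unique (hg z)

lemma vadd_eq (f : ℍ → ℂ) (h : sl f !![1, 1; 0, 1] = f) (z : ℍ) : f ((1 : ℝ) +ᵥ z) = f z := by
  conv_rhs => rw [← h]
  rw [sl_apply f _ (by simp [Matrix.det_fin_two_of]) z ((1 : ℝ) +ᵥ z) (by simp; ring)]
  simp [Matrix.det_fin_two_of]

lemma periodic_of {f : ℍ → ℂ} (h : ∀ z : ℍ, f ((1 : ℝ) +ᵥ z) = f z) :
    Function.Periodic (f ∘ ofComplex) (1 : ℝ) := by
  intro w
  by_cases hw : 0 < w.im
  · have h1 : 0 < (w + (1 : ℝ)).im := by simp [hw]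
    simp only [Function.comp_apply, ofComplex_apply_of_im_pos h1, ofComplex_apply_of_im_pos hw]
    rw [← h ⟨w, hw⟩]
    congr 1
    apply UpperHalfPlane.ext
    simp [add_comm]
  · have h1 : (w + (1 : ℝ)).im ≤ 0 := by simpa using hw
    have h2 : w.im ≤ 0 := by simpa using hw
    simp only [Function.comp_apply, ofComplex_apply_of_im_nonpos h1,
      ofComplex_apply_of_im_nonpos h2]

/-- cusp forms have expansions -/
lemma Cusp.qe {f : ℍ → ℂ} (hf : Cusp f) (h : sl f !![1, 1; 0, 1] = f) :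
    ∃ c : ℕ → ℂ, QE f c ∧ c 0 = 0 := by
  have hper := periodic_of (vadd_eq f h)
  have hz : IsZeroAtImInfty f := by simpa using hf.zero 1
  have hb : IsBoundedAtImInfty f := hz.boundedAtFilter
  have han := UpperHalfPlane.analyticAt_cuspFunction_zero (h := 1) one_pos hper hf.holo hb
  refine ⟨fun n => (qExpansion 1 f).coeff n, ?_, ?_⟩
  · rw [QE_iff']
    intro z
    exact UpperHalfPlane.hasSum_qExpansion one_pos hper hf.holo hb z
  · exact (UpperHalfPlane.qExpansion_coeff_zero one_pos han hper).trans hz.valueAtInfty_eq_zero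

lemma _root_.P004N.S2.qe {N : ℕ} {f : ℍ → ℂ} (hf : S2 N f) : ∃ c : ℕ → ℂ, QE f c ∧ c 0 = 0 := by
  refine hf.cusp.qe (hf.inv ⟨by rw [Matrix.det_fin_two_of]; norm_num, by simp⟩)

lemma _root_.HasSum.congr_fun' {ι : Type*} {u v : ι → ℂ} {a : ℂ} (h : HasSum u a)
    (h1 : ∀ i, v i = u i) : HasSum v a := by
  rwa [show v = u from funext h1]

/-! ### the operators -/

/-- `f(pz)` -/
lemma sl_V (f : ℍ → ℂ) (p : ℕ) (hp : 0 < p) (z z' : ℍ) (h : (z' : ℂ) = p * z) :
    sl f !![(p : ℤ), 0; 0, 1] z = p * f z' := by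
  rw [sl_apply f _ (by simp [Matrix.det_fin_two_of]; exact_mod_cast hp) z z' (by simp [h])]
  simp [Matrix.det_fin_two_of]
  ring

lemma qe_V {f : ℍ → ℂ} {c : ℕ → ℂ} (hf : QE f c) (p : ℕ) (hp : 0 < p) :
    QE (sl f !![(p : ℤ), 0; 0, 1]) (fun n => if p ∣ n then (p : ℂ) * c (n / p) else 0) := by
  intro z
  have him : 0 < ((p : ℂ) * z).im := by
    simp only [Complex.mul_im, Complex.natCast_re, Complex.natCast_im, zero_mul, add_zero]
    have := z.im_pos
    positivity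
  rw [sl_V f p hp z ⟨(p : ℂ) * z, him⟩ rfl]
  have h1 := (hf ⟨(p : ℂ) * z, him⟩).mul_left (p : ℂ)
  have hinj : Function.Injective (fun m : ℕ => p * m) := fun a b h => by
    have : p * a = p * b := h
    exact Nat.eq_of_mul_eq_mul_left hp this
  refine (hinj.hasSum_iff ?_).1 ?_
  · intro n hn
    have : ¬ p ∣ n := by
      rintro ⟨m, rfl⟩
      exact hn ⟨m, rfl⟩
    simp [this]
  · refine h1.congr_fun' fun m => ?_
    simp only [Function.comp_apply, dvd_mul_right, if_true, Nat.mul_div_cancel_left m hp]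
    rw [mul_assoc]
    congr 3
    push_cast
    ring

lemma sl_U (f : ℍ → ℂ) (p : ℕ) (hp : 0 < p) (j : ℤ) (z z' : ℍ) (h : (z' : ℂ) = (z + j) / p) :
    sl f !![1, j; 0, (p : ℤ)] z = (p : ℂ)⁻¹ * f z' := by
  have hp' : (p : ℂ) ≠ 0 := by exact_mod_cast hp.ne'
  rw [sl_apply f _ (by simp [Matrix.det_fin_two_of]; exact_mod_cast hp) z z' (by simp [h])]
  simp [Matrix.det_fin_two_of]
  field_simp

lemma geom_ee (p : ℕ) (hp : 0 < p) (n : ℕ) :
    ∑ j : Fin p, (p : ℂ)⁻¹ * Complex.exp (2 * π * Complex.I * n * ((j : ℕ) : ℂ) / p) =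
      if p ∣ n then 1 else 0 := by
  have hp' : (p : ℂ) ≠ 0 := by exact_mod_cast hp.ne'
  set ζ : ℂ := Complex.exp (2 * π * Complex.I / p) with hζ
  have hprim : IsPrimitiveRoot ζ p := Complex.isPrimitiveRoot_exp p hp.ne'
  have hterm : ∀ j : ℕ, Complex.exp (2 * π * Complex.I * n * (j : ℂ) / p) = (ζ ^ n) ^ j := by
    intro j
    rw [hζ, ← pow_mul, ← Complex.exp_nat_mul]
    congr 1
    push_cast
    ring
  rw [← Finset.mul_sum]
  simp only [hterm]
  rw [Fin.sum_univ_eq_sum_range (fun j => (ζ ^ n) ^ j) p]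
  split_ifs with h
  · have : ζ ^ n = 1 := (hprim.pow_eq_one_iff_dvd n).2 h
    simp [this, hp']
  · have h1 : ζ ^ n ≠ 1 := fun h1 => h ((hprim.pow_eq_one_iff_dvd n).1 h1)
    rw [geom_sum_eq h1, ← pow_mul, mul_comm n p, pow_mul, hprim.pow_eq_one]
    simp

lemma qe_U {f : ℍ → ℂ} {c : ℕ → ℂ} (hf : QE f c) (p : ℕ) (hp : 0 < p) :
    QE (∑ j : Fin p, sl f !![1, ((j : ℕ) : ℤ); 0, (p : ℤ)]) (fun n => c (p * n)) := by
  intro z
  have hp' : (p : ℂ) ≠ 0 := by exact_mod_cast hp.ne'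
  have him : ∀ j : ℕ, 0 < (((z : ℂ) + ((j : ℤ) : ℂ)) / p).im := by
    intro j
    rw [Complex.div_natCast_im]
    simp only [Complex.add_im, Complex.intCast_im, add_zero]
    have := z.im_pos
    have h2 : (0 : ℝ) < p := by exact_mod_cast hp
    exact div_pos this h2
  have h1 : ∀ j : Fin p, HasSum (fun n => c n * (Complex.exp (2 * π * Complex.I * n * z / p) *
      ((p : ℂ)⁻¹ * Complex.exp (2 * π * Complex.I * n * ((j : ℕ) : ℂ) / p))))
      (sl f !![1, ((j : ℕ) : ℤ); 0, (p : ℤ)] z) := by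
    intro j
    rw [sl_U f p hp _ z ⟨_, him j⟩ rfl]
    refine ((hf ⟨_, him j⟩).mul_left (p : ℂ)⁻¹).congr_fun' fun n => ?_
    rw [show (2 * π * Complex.I * n * (((⟨_, him j⟩ : ℍ)) : ℂ)) =
      2 * π * Complex.I * n * z / p + 2 * π * Complex.I * n * ((j : ℕ) : ℂ) / p by
        push_cast
        ring, Complex.exp_add]
    ring
  have h2 := hasSum_sum (s := Finset.univ) (fun j _ => h1 j)
  rw [← Finset.sum_apply] at h2
  have hinj : Function.Injective (fun m : ℕ => p * m) := fun a b h => by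
    have : p * a = p * b := h
    exact Nat.eq_of_mul_eq_mul_left hp this
  have h3 : ∀ n : ℕ, ∑ j : Fin p, c n * (Complex.exp (2 * π * Complex.I * n * z / p) *
      ((p : ℂ)⁻¹ * Complex.exp (2 * π * Complex.I * n * ((j : ℕ) : ℂ) / p))) =
      c n * (Complex.exp (2 * π * Complex.I * n * z / p) * (if p ∣ n then 1 else 0)) := by
    intro n
    rw [← geom_ee p hp n, Finset.mul_sum, Finset.mul_sum]
  simp only [h3] at h2
  rw [← hinj.hasSum_iff ?_] at h2
  · refine h2.congr_fun' fun m => ?_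
    simp only [Function.comp_apply, dvd_mul_right, if_true, mul_one]
    congr 2
    push_cast
    field_simp
  · intro n hn
    have : ¬ p ∣ n := by
      rintro ⟨m, rfl⟩
      exact hn ⟨m, rfl⟩
    simp [this]

end P004N.H461
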