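import Vale.Agent.P004N.Defs

/-!
# Slash action of integer matrices of positive determinant (weight two)
-/

open UpperHalfPlane CongruenceSubgroup
open scoped MatrixGroups ModularForm Manifold Real

namespace P004N.H461

/-- integer two by two matrices -/
abbrev M2 := Matrix (Fin 2) (Fin 2) ℤ

lemma det_map (m : M2) : (m.map (Int.cast : ℤ → ℝ)).det = ((m.det : ℤ) : ℝ) := by
  simp [Matrix.det_fin_two]

/-- the real invertible matrix of an integer matrix of positive determinant -/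
noncomputable def gl (m : M2) (h : 0 < m.det) : GL (Fin 2) ℝ :=
  Matrix.GeneralLinearGroup.mkOfDetNeZero (m.map (Int.cast : ℤ → ℝ))
    (by rw [det_map]; exact_mod_cast h.ne')

lemma gl_coe (m : M2) (h : 0 < m.det) : ((gl m h : GL (Fin 2) ℝ) : Matrix (Fin 2) (Fin 2) ℝ)
    = m.map (Int.cast : ℤ → ℝ) := rfl

lemma gl_apply (m : M2) (h : 0 < m.det) (i j : Fin 2) : (gl m h) i j = (m i j : ℝ) := rfl

lemma gl_det (m : M2) (h : 0 < m.det) : ((gl m h).det : ℝ) = (m.det : ℝ) := by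
  rw [Matrix.GeneralLinearGroup.val_det_apply, gl_coe, det_map]

lemma gl_det_pos (m : M2) (h : 0 < m.det) : 0 < ((gl m h).det : ℝ) := by
  rw [gl_det]; exact_mod_cast h

lemma gl_mul (m n : M2) (hm : 0 < m.det) (hn : 0 < n.det) (h : 0 < (m * n).det) :
    gl (m * n) h = gl m hm * gl n hn := by
  ext i j
  rw [Matrix.GeneralLinearGroup.coe_mul, gl_coe, gl_coe, gl_coe]
  fin_cases i <;> fin_cases j <;> simp [Matrix.mul_apply]

open Classical in
/-- slash action of weight two of an integer matrix -/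
noncomputable def sl (f : ℍ → ℂ) (m : M2) : ℍ → ℂ :=
  if h : 0 < m.det then f ∣[(2 : ℤ)] gl m h else 0

lemma sl_pos (f : ℍ → ℂ) (m : M2) (h : 0 < m.det) : sl f m = f ∣[(2 : ℤ)] gl m h := by
  simp [sl, h]

lemma sl_mul (f : ℍ → ℂ) (m n : M2) (hm : 0 < m.det) (hn : 0 < n.det) :
    sl f (m * n) = sl (sl f m) n := by
  have h : 0 < (m * n).det := by rw [Matrix.det_mul]; positivity
  rw [sl_pos _ _ h, sl_pos _ _ hn, sl_pos _ _ hm, gl_mul m n hm hn, SlashAction.slash_mul]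

lemma gl_SL (γ : SL(2, ℤ)) : gl γ.1 (by simp) = (γ : GL (Fin 2) ℝ) := by
  ext i j
  simp [gl_coe]

lemma sl_SL (f : ℍ → ℂ) (γ : SL(2, ℤ)) : sl f γ.1 = f ∣[(2 : ℤ)] γ := by
  rw [sl_pos _ _ (by simp), gl_SL, ModularForm.SL_slash]

lemma σ_gl (m : M2) (h : 0 < m.det) (w : ℂ) : σ (gl m h) w = w := by
  rw [σ, if_pos (gl_det_pos m h)]
  rfl

lemma denom_gl (m : M2) (h : 0 < m.det) (z : ℍ) :
    denom (gl m h) z = (m 1 0 : ℂ) * z + (m 1 1 : ℂ) := by
  simp [denom, gl_apply]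

lemma num_gl (m : M2) (h : 0 < m.det) (z : ℍ) :
    num (gl m h) z = (m 0 0 : ℂ) * z + (m 0 1 : ℂ) := by
  simp [num, gl_apply]

lemma coe_smul_gl (m : M2) (h : 0 < m.det) (z : ℍ) :
    ((gl m h • z : ℍ) : ℂ) = ((m 0 0 : ℂ) * z + (m 0 1 : ℂ)) / ((m 1 0 : ℂ) * z + (m 1 1 : ℂ)) := by
  rw [UpperHalfPlane.coe_smul_of_det_pos (gl_det_pos m h), num_gl, denom_gl]

lemma sl_apply (f : ℍ → ℂ) (m : M2) (h : 0 < m.det) (z z' : ℍ)
    (hz : (z' : ℂ) = ((m 0 0 : ℂ) * z + (m 0 1 : ℂ)) / ((m 1 0 : ℂ) * z + (m 1 1 : ℂ))) :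
    sl f m z = f z' * (m.det : ℂ) * (((m 1 0 : ℂ) * z + (m 1 1 : ℂ)) ^ 2)⁻¹ := by
  have e : gl m h • z = z' := by
    apply UpperHalfPlane.ext
    rw [coe_smul_gl, hz]
  rw [sl_pos _ _ h, ModularForm.slash_apply, σ_gl, e, gl_det, denom_gl]
  have : |(m.det : ℝ)| = (m.det : ℝ) := abs_of_pos (by exact_mod_cast h)
  rw [this]
  norm_num

lemma sl_smul (f : ℍ → ℂ) (c : ℂ) (m : M2) : sl (c • f) m = c • sl f m := by
  by_cases h : 0 < m.det
  · rw [sl_pos _ _ h, sl_pos _ _ h, ModularForm.smul_slash, σ_gl]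
  · simp [sl, h]

lemma sl_add (f g : ℍ → ℂ) (m : M2) : sl (f + g) m = sl f m + sl g m := by
  by_cases h : 0 < m.det
  · rw [sl_pos _ _ h, sl_pos _ _ h, sl_pos _ _ h, SlashAction.add_slash]
  · simp [sl, h]

lemma sl_sum {ι : Type*} (s : Finset ι) (F : ι → ℍ → ℂ) (m : M2) :
    sl (∑ i ∈ s, F i) m = ∑ i ∈ s, sl (F i) m := by
  by_cases h : 0 < m.det
  · simp only [sl_pos _ _ h]
    rw [SlashAction.sum_slash]
  · simp [sl, h]

/-- scalar matrices act trivially in weight two -/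
lemma sl_scalar (f : ℍ → ℂ) (q : ℤ) (hq : 0 < q) : sl f !![q, 0; 0, q] = f := by
  funext z
  have hd : 0 < (!![q, 0; 0, q] : M2).det := by
    rw [Matrix.det_fin_two_of]; nlinarith
  have hq' : (q : ℂ) ≠ 0 := by exact_mod_cast hq.ne'
  rw [sl_apply f _ hd z z (by simp; field_simp)]
  simp [Matrix.det_fin_two_of]
  field_simp

lemma sl_one (f : ℍ → ℂ) : sl f 1 = f := by
  have := sl_scalar f 1 one_pos
  rwa [← Matrix.one_fin_two] at this

lemma mdiff_sl {f : ℍ → ℂ} (hf : MDiff f) (m : M2) : MDiff (sl f m) := by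
  by_cases h : 0 < m.det
  · rw [sl_pos _ _ h]
    exact hf.slash 2 _
  · simp only [sl, h, dite_false]
    exact mdifferentiable_const

/-- Hermite normal form -/
lemma hermite (m : M2) (h : 0 < m.det) : ∃ (γ : SL(2, ℤ)) (a b d : ℤ), 0 < a * d ∧
    m = γ.1 * !![a, b; 0, d] := by
  -- first column `(x, y)`
  set x := m 0 0 with hx
  set y := m 1 0 with hy
  have hdet : m.det = x * m 1 1 - m 0 1 * y := by rw [Matrix.det_fin_two]
  have hg : (Int.gcd x y : ℤ) ≠ 0 := by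
    intro h0
    have h0' : Int.gcd x y = 0 := by exact_mod_cast h0
    rw [Int.gcd_eq_zero_iff] at h0'
    rw [hdet, h0'.1, h0'.2] at h
    simp at h
  set g : ℤ := (Int.gcd x y : ℤ) with hgdef
  obtain ⟨x', hx'⟩ : g ∣ x := Int.gcd_dvd_left ..
  obtain ⟨y', hy'⟩ : g ∣ y := Int.gcd_dvd_right ..
  have hbez : g = x * Int.gcdA x y + y * Int.gcdB x y := Int.gcd_eq_gcd_ab x y
  set u := Int.gcdA x y
  set v := Int.gcdB x y
  have huv : x' * u + y' * v = 1 := by
    have : g * (x' * u + y' * v) = g * 1 := by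
      calc g * (x' * u + y' * v) = x * u + y * v := by rw [hx', hy']; ring
        _ = g * 1 := by rw [← hbez, mul_one]
    exact mul_left_cancel₀ hg this
  -- γ = (x' -v; y' u)
  have hγ : (!![x', -v; y', u] : M2).det = 1 := by
    rw [Matrix.det_fin_two_of]; linarith
  refine ⟨⟨!![x', -v; y', u], hγ⟩, g, u * m 0 1 + v * m 1 1, -y' * m 0 1 + x' * m 1 1, ?_, ?_⟩
  · have : g * (-y' * m 0 1 + x' * m 1 1) = m.det := by
      rw [hdet, hx', hy']; ring
    rw [this]; exact h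
  · ext i j
    fin_cases i <;> fin_cases j
    · simp [Matrix.mul_apply]
      rw [← hx, hx']; ring
    · simp [Matrix.mul_apply]
      linear_combination (-(m 0 1)) * huv
    · simp [Matrix.mul_apply]
      rw [← hy, hy']; ring
    · simp [Matrix.mul_apply]
      linear_combination (-(m 1 1)) * huv

lemma zero_sl {f : ℍ → ℂ} (hf : ∀ γ : SL(2, ℤ), IsZeroAtImInfty (f ∣[(2 : ℤ)] γ)) (m : M2) :
    IsZeroAtImInfty (sl f m) := by
  by_cases h : 0 < m.det
  · obtain ⟨γ, a, b, d, had, rfl⟩ := hermite m h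
    have hd : 0 < (!![a, b; 0, d] : M2).det := by
      rw [Matrix.det_fin_two_of]; simpa using had
    rw [sl_mul _ _ _ (by simp) hd, sl_SL, sl_pos _ _ hd]
    refine UpperHalfPlane.IsZeroAtImInfty.slash 2 ?_ (hf γ)
    simp [gl_apply]
  · simp only [sl, h, dite_false]
    exact Filter.zero_zeroAtFilter _

/-- the cusp form property is stable under all integer matrices -/
structure Cusp (f : ℍ → ℂ) : Prop where
  holo : MDiff f
  zero : ∀ γ : SL(2, ℤ), IsZeroAtImInfty (f ∣[(2 : ℤ)] γ)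

lemma Cusp.slash {f : ℍ → ℂ} (hf : Cusp f) (m : M2) : Cusp (sl f m) := by
  refine ⟨mdiff_sl hf.holo m, fun γ => ?_⟩
  by_cases h : 0 < m.det
  · rw [← sl_SL, ← sl_mul _ _ _ h (by simp)]
    exact zero_sl hf.zero _
  · have : sl f m = 0 := by simp [sl, h]
    rw [this, SlashAction.zero_slash]
    exact Filter.zero_zeroAtFilter _

lemma Cusp.add {f g : ℍ → ℂ} (hf : Cusp f) (hg : Cusp g) : Cusp (f + g) := by
  refine ⟨hf.holo.add hg.holo, fun γ => ?_⟩
  rw [SlashAction.add_slash]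
  have := (hf.zero γ).add (hg.zero γ)
  simpa [IsZeroAtImInfty, Filter.ZeroAtFilter] using this

lemma Cusp.zero' : Cusp 0 := by
  refine ⟨mdifferentiable_const, fun γ => ?_⟩
  rw [SlashAction.zero_slash]
  exact Filter.zero_zeroAtFilter _

lemma Cusp.sum {ι : Type*} (s : Finset ι) (F : ι → ℍ → ℂ) (hF : ∀ i ∈ s, Cusp (F i)) :
    Cusp (∑ i ∈ s, F i) := by
  classical
  induction s using Finset.induction_on with
  | empty => simpa using Cusp.zero'
  | insert i t hi IH =>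
    rw [Finset.sum_insert hi]
    exact (hF i (by simp)).add (IH fun j hj => hF j (by simp [hj]))

lemma Cusp.smul {f : ℍ → ℂ} (hf : Cusp f) (c : ℂ) : Cusp (c • f) := by
  refine ⟨hf.holo.const_smul c, fun γ => ?_⟩
  rw [ModularForm.SL_smul_slash]
  have := (hf.zero γ).const_mul c
  rw [mul_zero] at this
  exact this

lemma _root_.P004N.S2.cusp {N : ℕ} {f : ℍ → ℂ} (hf : S2 N f) : Cusp f := ⟨hf.holo, hf.zero⟩

lemma _root_.P004N.S2.of_cusp {N : ℕ} {f : ℍ → ℂ} (hf : Cusp f)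
    (h : ∀ γ ∈ Gamma0 N, f ∣[(2 : ℤ)] γ = f) : S2 N f := ⟨hf.holo, h, hf.zero⟩

/-- integer matrices of determinant one, lower left entry divisible by `N` -/
def G0 (N : ℕ) (m : M2) : Prop := m.det = 1 ∧ (N : ℤ) ∣ m 1 0

lemma G0.det {N : ℕ} {m : M2} (h : G0 N m) : 0 < m.det := by rw [h.1]; exact one_pos

lemma G0_iff (N : ℕ) (γ : SL(2, ℤ)) : γ ∈ Gamma0 N ↔ G0 N γ.1 := by
  rw [Gamma0_mem]
  constructor
  · intro h
    exact ⟨γ.2, by rwa [ZMod.intCast_zmod_eq_zero_iff_dvd] at h⟩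
  · intro h
    rw [ZMod.intCast_zmod_eq_zero_iff_dvd]
    exact h.2

lemma _root_.P004N.S2.inv {N : ℕ} {f : ℍ → ℂ} (hf : S2 N f) {m : M2} (h : G0 N m) :
    sl f m = f := by
  have h1 := hf.slash ⟨m, h.1⟩ ((G0_iff N _).2 h)
  have h2 := sl_SL f ⟨m, h.1⟩
  exact h2.trans h1

lemma _root_.P004N.S2.mk_sl {N : ℕ} {f : ℍ → ℂ} (hf : Cusp f)
    (h : ∀ m : M2, G0 N m → sl f m = f) : S2 N f := by
  refine S2.of_cusp hf fun γ hγ => ?_
  rw [← sl_SL]
  exact h _ ((G0_iff N γ).1 hγ)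

end P004N.H461
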