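import Vale.Agent.P004N.H503.Iface
import Vale.Agent.P004N.H461.Cf

/-!
# The statements U3 - U6 of the interface of the elementary T9
-/

open UpperHalfPlane CongruenceSubgroup
open scoped MatrixGroups ModularForm Manifold Real

namespace P004N.H461

/-- U3 -/
theorem pfUp : StUp := by
  intro M M' p F c _ hp hpM hM _ hF hc
  exact ⟨Up p F, S2.up hp hpM hM hF, qe_U hc p hp.pos⟩

lemma S2.tp {M p : ℕ} (hp : p.Prime) (hpM : ¬ p ∣ M) {F : ℍ → ℂ} (hF : S2 M F) :
    S2 M (Tp p F) := by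
  refine S2.mk_sl (Cusp.sum _ _ fun j _ => hF.cusp.slash _) fun γ hγ => ?_
  have hal : ∀ i, 0 < (al p i).det := fun i => by rw [al_det]; exact_mod_cast hp.pos
  rw [Tp, sl_sum]
  have e : ∀ i, sl (sl F (al p i)) γ = sl F (al p i * γ) := fun i => by
    rw [sl_mul _ _ _ (hal i) hγ.det]
  simp only [e]
  refine coset_sum hF _ _ hal (fun i => ?_) ?_
  · refine al_rep hp hpM _ ?_ ?_
    · rw [Matrix.det_mul, al_det, hγ.1, mul_one]
    · have h1 : (al p i * γ) 1 0 = (al p i) 1 0 * γ 0 0 + (al p i) 1 1 * γ 1 0 := by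
        rw [Matrix.mul_apply, Fin.sum_univ_two]
      have h2 : (al p i) 1 0 = 0 := by cases i <;> simp [al]
      rw [h1, h2, zero_mul, zero_add]
      exact hγ.2.mul_left _
  · intro i i' δ hδ h1
    rw [← Matrix.mul_assoc] at h1
    exact al_inj hp i i' δ hδ.1 (mul_right_cancel_det hγ.det h1)

/-- U4 -/
theorem pfTp : StTp := by
  intro M p F c _ hp hpM hF hc
  exact ⟨Tp p F, S2.tp hp hpM hF, qe_T hc p hp.pos⟩

/-- the functional form of `F ∣ W_Q = G` -/
lemma als_iff {N Q R : ℕ} (hN : Q * R = N) (hQ : 0 < Q) (F G : ℍ → ℂ) :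
    ALs N Q F G ↔ ∀ x y z w : ℤ, Q * x * w - y * R * z = 1 → sl F (WW Q R x y z w) = G := by
  subst hN
  have hQ0 : (Q : ℤ) ≠ 0 := by exact_mod_cast hQ.ne'
  have hQc : (Q : ℂ) ≠ 0 := by exact_mod_cast hQ.ne'
  have key : ∀ x y z w : ℤ, (Q * x) * (Q * w) - y * (((Q * R : ℕ) : ℤ) * z) = (Q : ℤ) ↔
      Q * x * w - y * R * z = 1 := by
    intro x y z w
    constructor
    · intro h
      have : (Q : ℤ) * (Q * x * w - y * R * z) = Q * 1 := by
        push_cast at h
        linear_combination h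
      exact mul_left_cancel₀ hQ0 this
    · intro h
      push_cast
      linear_combination (Q : ℤ) * h
  have hden : ∀ (x y z w : ℤ) (h : Q * x * w - y * R * z = 1) (τ : ℍ),
      ((Q * R : ℕ) : ℂ) * z * τ + Q * w ≠ 0 := by
    intro x y z w h τ
    have hd : 0 < (WW Q R x y z w).det := by rw [WW_det h]; exact_mod_cast hQ
    have := UpperHalfPlane.denom_ne_zero (gl _ hd) τ
    rw [denom_gl] at this
    simpa [WW] using this
  have hsl : ∀ (x y z w : ℤ) (h : Q * x * w - y * R * z = 1) (τ τ' : ℍ),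
      (τ' : ℂ) = (Q * x * τ + y) / (((Q * R : ℕ) : ℂ) * z * τ + Q * w) →
      sl F (WW Q R x y z w) τ = F τ' * Q * ((((Q * R : ℕ) : ℂ) * z * τ + Q * w) ^ 2)⁻¹ := by
    intro x y z w h τ τ' hτ
    have hd : 0 < (WW Q R x y z w).det := by rw [WW_det h]; exact_mod_cast hQ
    rw [sl_apply F _ hd τ τ' (by rw [hτ]; simp [WW]), WW_det h]
    simp [WW]
  constructor
  · intro hA x y z w h
    funext τ
    have hd : 0 < (WW Q R x y z w).det := by rw [WW_det h]; exact_mod_cast hQ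
    have hτ : ((gl _ hd • τ : ℍ) : ℂ) =
        (Q * x * τ + y) / (((Q * R : ℕ) : ℂ) * z * τ + Q * w) := by
      rw [coe_smul_gl]; simp [WW]
    rw [hsl x y z w h τ _ hτ, hA x y z w ((key _ _ _ _).2 h) τ _ hτ]
    have hne := hden x y z w h τ
    have aux : ∀ D : ℂ, D ≠ 0 → D ^ 2 / (Q : ℂ) * G τ * Q * (D ^ 2)⁻¹ = G τ := by
      intro D hD
      field_simp
    exact aux _ hne
  · intro hA x y z w h τ τ' hτ
    have h' := (key _ _ _ _).1 h
    have h1 := hsl x y z w h' τ τ' hτ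
    rw [hA x y z w h'] at h1
    have hne := hden x y z w h' τ
    have aux : ∀ D : ℂ, D ≠ 0 → F τ' = D ^ 2 / (Q : ℂ) * (F τ' * Q * (D ^ 2)⁻¹) := by
      intro D hD
      field_simp
    rw [h1]
    exact aux _ hne

lemma bez {Q R : ℕ} (h : Q.Coprime R) : ∃ x y z w : ℤ, Q * x * w - y * R * z = 1 := by
  obtain ⟨u, v, huv⟩ := Nat.isCoprime_iff_coprime.2 h
  exact ⟨1, -v, 1, u, by linear_combination huv⟩

/-- U5a -/
theorem pfWQ : StWQ := by
  intro N Q R hN hQR hco F c hF hc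
  subst hQR
  have hQ : 0 < Q := Nat.pos_of_mul_pos_right hN
  obtain ⟨x, y, z, w, h⟩ := bez hco
  have hG := S2.ww hQ h hF
  obtain ⟨c', hc', -⟩ := hG.qe
  refine ⟨_, c', hG, hc', (als_iff rfl hQ _ _).2 fun x' y' z' w' h' => ww_indep hQ h h' hF,
    (als_iff rfl hQ _ _).2 fun x' y' z' w' h' => ?_, ?_⟩
  · rw [← ww_indep hQ h h' hF, ww_ww hQ h' hF]
  · intro q l hq hqN hT
    have h1 : Tp q F = l • F := by
      refine QE.ext (qe_T hc q hq.pos) ?_
      rw [show (fun n => c (q * n) + (if q ∣ n then (q : ℂ) * c (n / q) else 0)) =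
        fun n => l * c n from funext hT]
      exact QE.smul hc l
    have h2 : Tp q (sl F (WW Q R x y z w)) = l • sl F (WW Q R x y z w) := by
      rw [Tp_ww hQ h hF hq hqN, h1, sl_smul]
    have h3 := qe_T hc' q hq.pos
    rw [h2] at h3
    exact fun n => congrFun (QE.unique h3 (QE.smul hc' l)) n

/-- U5b -/
theorem pfWu : StWu := by
  intro N Q R hN hQR hco F G G' h h'
  have hQ : 0 < Q := by
    rw [← hQR] at hN
    exact Nat.pos_of_mul_pos_right hN
  obtain ⟨x, y, z, w, e⟩ := bez hco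
  rw [← (als_iff hQR hQ F G).1 h x y z w e, ← (als_iff hQR hQ F G').1 h' x y z w e]

/-- `W_N W_Q = γ W_Q W_N`, `γ ∈ Γ₀(N)` -/
lemma ww_comm {Q R : ℕ} (hQ : 0 < Q) (hR : 0 < R) {x y z w : ℤ} (h : Q * x * w - y * R * z = 1)
    {F : ℍ → ℂ} (hF : S2 (Q * R) F) {x' y' z' w' : ℤ}
    (h' : ((Q * R : ℕ) : ℤ) * x' * w' - y' * ((1 : ℕ) : ℤ) * z' = 1) :
    sl (sl F (WW Q R x y z w)) (WW (Q * R) 1 x' y' z' w') =
      sl (sl F (WW (Q * R) 1 x' y' z' w')) (WW Q R x y z w) := by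
  have hQR : 0 < Q * R := Nat.mul_pos hQ hR
  have h0 : ((Q * R : ℕ) : ℤ) * 0 * 0 - (-1) * ((1 : ℕ) : ℤ) * 1 = 1 := by norm_num
  have hF1 : S2 (Q * R * 1) F := by rw [mul_one]; exact hF
  have hG1 : S2 (Q * R * 1) (sl F (WW Q R x y z w)) := by rw [mul_one]; exact S2.ww hQ h hF
  rw [ww_indep hQR h0 h' hF1, ww_indep hQR h0 h' hG1]
  have hd : 0 < (WW Q R x y z w).det := by rw [WW_det h]; exact_mod_cast hQ
  have hd0 : 0 < (WW (Q * R) 1 0 (-1) 1 0).det := by rw [WW_det h0]; exact_mod_cast hQR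
  have e : WW (Q * R) 1 0 (-1) 1 0 * WW Q R x y z w =
      !![R * z ^ 2 + Q * w ^ 2, -z * x - w * y; (Q * R : ℤ) * (-(x * z + y * w)),
        Q * x ^ 2 + R * y ^ 2] * (WW Q R x y z w * WW (Q * R) 1 0 (-1) 1 0) := by
    rw [WW, WW]
    ext i j
    fin_cases i <;> fin_cases j
    · simp [Matrix.mul_apply]
      linear_combination (Q * R * z : ℤ) * h
    · simp [Matrix.mul_apply]
      linear_combination (Q * w : ℤ) * h
    · simp [Matrix.mul_apply]
      linear_combination (-(Q * R * Q * x : ℤ)) * h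
    · simp [Matrix.mul_apply]
      linear_combination (-(Q * R * y : ℤ)) * h
  have hg : G0 (Q * R) !![R * z ^ 2 + Q * w ^ 2, -z * x - w * y; (Q * R : ℤ) * (-(x * z + y * w)),
        Q * x ^ 2 + R * y ^ 2] := by
    refine ⟨?_, by simp⟩
    have h2 := congrArg Matrix.det e
    rw [Matrix.det_mul, Matrix.det_mul, Matrix.det_mul, WW_det h, WW_det h0] at h2
    have h3 : (((Q * R : ℕ) : ℤ) * (Q : ℤ)) ≠ 0 := by
      have : (0 : ℤ) < ((Q * R : ℕ) : ℤ) * (Q : ℤ) := by exact_mod_cast Nat.mul_pos hQR hQ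
      exact this.ne'
    refine mul_right_cancel₀ h3 ?_
    rw [one_mul]
    linear_combination -h2
  rw [← sl_mul _ _ _ hd0 hd, e, sl_mul _ _ _ hg.det (by rw [Matrix.det_mul]; exact mul_pos hd hd0),
    hF.inv hg, sl_mul _ _ _ hd hd0]

/-- U5c -/
theorem pfWcm : StWcm := by
  intro N Q R hN hQR hco F G H K hF hG hH hK
  subst hQR
  have hQ : 0 < Q := Nat.pos_of_mul_pos_right hN
  have hR : 0 < R := Nat.pos_of_mul_pos_left hN
  obtain ⟨x, y, z, w, h⟩ := bez hco
  refine (als_iff (mul_one _) hN _ _).2 fun x' y' z' w' h' => ?_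
  rw [← (als_iff rfl hQ _ _).1 hG x y z w h, ww_comm hQ hR h hF h',
    (als_iff (mul_one _) hN _ _).1 hH x' y' z' w' h', (als_iff rfl hQ _ _).1 hK x y z w h]

/-- U6 -/
theorem pfTr : StTr := by
  intro L p F G c c' hL hp hpL hF hc hG hc'
  have hp0 : (0 : ℤ) < p := by exact_mod_cast hp.pos
  obtain ⟨w, y', hwy⟩ : IsCoprime (p : ℤ) (L : ℤ) := by
    rw [Nat.isCoprime_iff_coprime]
    exact (Nat.Prime.coprime_iff_not_dvd hp).2 hpL
  have hb : p * w - (-y') * L = 1 := by linear_combination hwy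
  set y := -y' with hy
  have hW : (p : ℤ) * 1 * w - y * L * 1 = 1 := by linear_combination hb
  have hs : sl F (WW p L 1 y 1 w) = G := (als_iff rfl hp.pos _ _).1 hG 1 y 1 w hW
  have hβ : (!![1, y; (L : ℤ), p * w] : M2).det = 1 := by
    rw [Matrix.det_fin_two_of]; linear_combination hb
  have hβp : 0 < (!![1, y; (L : ℤ), p * w] : M2).det := by rw [hβ]; exact one_pos
  have hV : 0 < (!![(p : ℤ), 0; 0, 1] : M2).det := by
    rw [Matrix.det_fin_two_of]; linarith
  have hV' : 0 < (!![1, 0; 0, (p : ℤ)] : M2).det := by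
    rw [Matrix.det_fin_two_of]; linarith
  have hW2 : WW p L 1 y 1 w = !![1, y; (L : ℤ), p * w] * !![(p : ℤ), 0; 0, 1] := by
    rw [WW]
    ext i j
    fin_cases i <;> fin_cases j <;> simp [Matrix.mul_apply]
    ring
  have hsc : !![(p : ℤ), 0; 0, 1] * !![1, 0; 0, (p : ℤ)] = !![(p : ℤ), 0; 0, p] := by
    ext i j
    fin_cases i <;> fin_cases j <;> simp [Matrix.mul_apply]
  have hβs : sl F !![1, y; (L : ℤ), p * w] = sl G !![1, 0; 0, (p : ℤ)] := by
    rw [← hs, hW2, sl_mul _ _ _ hβp hV, ← sl_mul (sl F _) _ _ hV hV', hsc, sl_scalar _ _ hp0]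
  have hT : ∀ j : ℤ, (!![1, j; 0, 1] : M2).det = 1 := by
    intro j; rw [Matrix.det_fin_two_of]; ring
  have htr : ∑ i, sl F (ps p L y w i) = F + Up p G := by
    rw [Fintype.sum_option]
    congr 1
    · rw [show ps p L y w none = 1 from rfl, sl_one]
    · rw [Up]
      refine Finset.sum_congr rfl fun j _ => ?_
      rw [ps, sl_mul _ _ _ hβp (by rw [hT]; exact one_pos), hβs,
        ← sl_mul _ _ _ hV' (by rw [hT]; exact one_pos)]
      congr 1
      ext i k
      fin_cases i <;> fin_cases k <;> simp [Matrix.mul_apply]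
  have hF' : S2 (L * p) F := by rw [mul_comm]; exact hF
  have hS := S2.trace hp hpL hb hF'
  rw [htr] at hS
  exact ⟨_, hS, QE.add hc (qe_U hc' p hp.pos)⟩

end P004N.H461
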